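import Vale.Agent.P006.H485.PoissonO

/-!
# P006, block PO: Poisson summation on `O = ℤ[ω]` for Schwartz functions, periodic weights,
radial weights.
-/

open MeasureTheory Filter Topology Function Set
open scoped FourierTransform Real SchwartzMap ComplexConjugate ContDiff

namespace Vale.Agent.P006.PO

/-! ### Schwartz functions -/

theorem schwartz_decay (f : 𝓢(ℂ, ℂ)) (k : ℕ) : ∃ C : ℝ, 0 ≤ C ∧ ∀ z, (1 + ‖z‖) ^ k * ‖f z‖ ≤ C := by
  refine ⟨2 ^ k * (Finset.Iic (k, 0)).sup (fun m => SchwartzMap.seminorm ℝ m.1 m.2) f,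
    by positivity, fun z => ?_⟩
  have := SchwartzMap.one_add_le_sup_seminorm_apply (𝕜 := ℝ) (m := (k, 0)) (le_refl k)
    (le_refl 0) f z
  simpa using this

theorem schwartz_dec (f : 𝓢(ℂ, ℂ)) : Dec f := by
  obtain ⟨C, _, hC⟩ := schwartz_decay f 3
  exact ⟨C, hC⟩

/-- `FT` in terms of Mathlib's Fourier transform -/
theorem FT_eq_fourier (f : ℂ → ℂ) (y : ℂ) : FT f y = 𝓕 f (2 * conj y) := by
  rw [FT, Real.fourier_eq']
  congr 1
  funext z
  rw [smul_eq_mul, eT, e, TrC]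
  congr 2
  rw [Complex.inner]
  simp
  ring

theorem FT_schwartz_decay (f : 𝓢(ℂ, ℂ)) (k : ℕ) :
    ∃ C : ℝ, 0 ≤ C ∧ ∀ y, (1 + ‖y‖) ^ k * ‖FT f y‖ ≤ C := by
  obtain ⟨C, h0, hC⟩ := schwartz_decay (𝓕 f) k
  refine ⟨C, h0, fun y => ?_⟩
  refine le_trans ?_ (hC (2 * conj y))
  rw [FT_eq_fourier, SchwartzMap.fourier_coe]
  gcongr
  rw [norm_mul, Complex.norm_conj]
  norm_num
  linarith [norm_nonneg y]

theorem FT_schwartz_dec (f : 𝓢(ℂ, ℂ)) : Dec (FT f) := by
  obtain ⟨C, _, hC⟩ := FT_schwartz_decay f 3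
  exact ⟨C, hC⟩

theorem continuous_FT_schwartz (f : 𝓢(ℂ, ℂ)) : Continuous (FT f) := by
  have : FT f = fun y => (𝓕 f) (2 * conj y) := by
    funext y; rw [FT_eq_fourier, SchwartzMap.fourier_coe]
  rw [this]
  exact (SchwartzMap.continuous _).comp (continuous_const.mul Complex.continuous_conj)

/-- **Poisson summation**, Schwartz functions. -/
theorem poisson_schwartz (f : 𝓢(ℂ, ℂ)) (a : ℂ) {q : ℂ} (hq : q ≠ 0) :
    HasSum (fun h : O => (2 / (Real.sqrt 3 * ‖q‖ ^ 2) : ℂ) *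
        (eT (a * (toC h / (toC rt3 * q))) * FT f (toC h / (toC rt3 * q))))
      (∑' x : O, f (a + q * toC x)) :=
  poisson_O f.continuous (schwartz_dec f) (FT_schwartz_dec f) a hq

/-! ### Periodic weights -/

/-- `S` is a complete system of residues modulo `q` -/
def IsResSys (q : O) (S : Finset O) : Prop := ∀ x : O, ∃! a, a ∈ S ∧ q ∣ x - a

/-- the bijection `S × O ≃ O`, `(a, y) ↦ a + q y` -/
noncomputable def resEquiv {q : O} (hq : q ≠ 0) {S : Finset O} (hS : IsResSys q S) :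
    (S × O) ≃ O := Equiv.ofBijective (fun p => (p.1 : O) + q * p.2) (by
  constructor
  · rintro ⟨a, x⟩ ⟨b, y⟩ h
    simp only at h
    have ha : q ∣ (a : O) + q * x - a := ⟨x, by ring⟩
    have hb : q ∣ (a : O) + q * x - b := ⟨y, by rw [h]; ring⟩
    have hab : (a : O) = b := (hS _).unique ⟨a.2, ha⟩ ⟨b.2, hb⟩
    have hab' : a = b := Subtype.ext hab
    subst hab'
    have : q * x = q * y := add_left_cancel h
    rw [mul_left_cancel₀ hq this]
  · intro x
    obtain ⟨a, ⟨haS, y, hy⟩, _⟩ := hS x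
    exact ⟨(⟨a, haS⟩, y), by simp only; rw [← hy]; ring⟩)

@[simp] theorem resEquiv_apply {q : O} (hq : q ≠ 0) {S : Finset O} (hS : IsResSys q S)
    (p : S × O) : resEquiv hq hS p = (p.1 : O) + q * p.2 := rfl

/-- the Gauss sum of a `q`-periodic weight -/
noncomputable def GS (q : O) (S : Finset O) (ψ : O → ℂ) (h : O) : ℂ :=
  ∑ a ∈ S, ψ a * eT (toC a * (toC h / (toC rt3 * toC q)))

/-- `ψ` is periodic modulo `q` -/
def Per (q : O) (ψ : O → ℂ) : Prop := ∀ x y : O, ψ (x + q * y) = ψ x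

theorem Per.bound {q : O} {S : Finset O} (hS : IsResSys q S) {ψ : O → ℂ} (hψ : Per q ψ)
    (x : O) : ‖ψ x‖ ≤ ∑ a ∈ S, ‖ψ a‖ := by
  obtain ⟨a, ⟨haS, y, hy⟩, _⟩ := hS x
  have h : ψ x = ψ a := by
    rw [← hψ a y, ← hy]; congr 1; ring
  rw [h]
  exact Finset.single_le_sum (f := fun a => ‖ψ a‖) (fun _ _ => norm_nonneg _) haS

theorem dec_summable_O {f : ℂ → ℂ} (hf : Dec f) : Summable fun x : O => f (toC x) := by
  have h := hf.summable 0 (one_ne_zero)
  simpa using h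

theorem summable_per_mul {f : ℂ → ℂ} (hf : Dec f) {q : O} {S : Finset O}
    (hS : IsResSys q S) {ψ : O → ℂ} (hψ : Per q ψ) :
    Summable fun x : O => ψ x * f (toC x) := by
  have h := (dec_summable_O hf).norm
  have h2 := h.mul_left (∑ a ∈ S, ‖ψ a‖)
  have h3 : ∀ x : O, ‖ψ x * f (toC x)‖ ≤ (∑ a ∈ S, ‖ψ a‖) * ‖f (toC x)‖ := by
    intro x
    rw [norm_mul]
    exact mul_le_mul_of_nonneg_right (hψ.bound hS x) (norm_nonneg _)
  exact Summable.of_norm_bounded h2 h3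

/-- **Poisson summation with a periodic weight** on `O`. -/
theorem poisson_per {f : ℂ → ℂ} (hc : Continuous f) (hf : Dec f) (hF : Dec (FT f))
    {q : O} (hq : q ≠ 0) {S : Finset O} (hS : IsResSys q S) {ψ : O → ℂ} (hψ : Per q ψ) :
    HasSum (fun h : O => (2 / (Real.sqrt 3 * N q) : ℂ) *
        (GS q S ψ h * FT f (toC h / (toC rt3 * toC q))))
      (∑' x : O, ψ x * f (toC x)) := by
  have hq' : toC q ≠ 0 := by simpa using hq
  have hsum := summable_per_mul hf hS hψ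
  have h1 : (∑' x : O, ψ x * f (toC x)) = ∑ a ∈ S, ψ a * ∑' y : O, f (toC a + toC q * toC y) := by
    rw [← (resEquiv hq hS).tsum_eq]
    have hs2 : Summable ((fun x : O => ψ x * f (toC x)) ∘ (resEquiv hq hS)) := by
      rw [(resEquiv hq hS).summable_iff]
      exact hsum
    have hs3 := hs2.tsum_prod
    simp only [comp_apply] at hs3
    rw [hs3, tsum_fintype,
      ← Finset.sum_coe_sort S (fun a => ψ a * ∑' y : O, f (toC a + toC q * toC y))]
    apply Finset.sum_congr rfl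
    intro a _
    rw [← tsum_mul_left]
    congr 1
    funext y
    rw [resEquiv_apply, hψ, map_add, map_mul]
  rw [h1]
  have h2 : ∀ a ∈ S, HasSum (fun h : O => ψ a * ((2 / (Real.sqrt 3 * ‖toC q‖ ^ 2) : ℂ) *
        (eT (toC a * (toC h / (toC rt3 * toC q))) * FT f (toC h / (toC rt3 * toC q)))))
        (ψ a * ∑' y : O, f (toC a + toC q * toC y)) := fun a _ =>
    (poisson_O hc hf hF (toC a) hq').mul_left (ψ a)
  have h3 := hasSum_sum h2
  have hN : ((‖toC q‖ : ℂ)) ^ 2 = (N q : ℂ) := by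
    have := N_eq_sq_norm q
    exact_mod_cast this.symm
  have h4 : (fun h : O => (2 / (Real.sqrt 3 * N q) : ℂ) *
        (GS q S ψ h * FT f (toC h / (toC rt3 * toC q)))) =
      fun h : O => ∑ a ∈ S, ψ a * ((2 / (Real.sqrt 3 * ‖toC q‖ ^ 2) : ℂ) *
        (eT (toC a * (toC h / (toC rt3 * toC q))) * FT f (toC h / (toC rt3 * toC q)))) := by
    funext h
    rw [GS, hN, Finset.sum_mul, Finset.mul_sum]
    apply Finset.sum_congr rfl
    intro a _
    ring
  rw [h4]
  exact h3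

end Vale.Agent.P006.PO
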