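import Vale.Agent.P006.H485.Laplace

/-!
# P006, block PO: uniform decay of `V^o` and lattice sums of decaying functions
-/

open MeasureTheory Filter Topology Function Set
open scoped FourierTransform Real SchwartzMap ComplexConjugate ContDiff

namespace Vale.Agent.P006.PO

/-- trivial bound -/
theorem norm_FT_le (f : ℂ → ℂ) (y : ℂ) : ‖FT f y‖ ≤ ∫ z : ℂ, ‖f z‖ := by
  rw [FT]
  refine (norm_integral_le_integral_norm _).trans (le_of_eq ?_)
  congr 1
  funext z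
  rw [norm_mul, norm_eT, one_mul]

theorem norm_Vo_le (V : ℝ → ℂ) (x : ℝ) : ‖Vo V x‖ ≤ ∫ z : ℂ, ‖rad V z‖ := norm_FT_le _ _

theorem Vo_DV_DV {V : ℝ → ℂ} (hV : Wt V) {x : ℝ} (hx : 0 ≤ x) :
    Vo (DV (DV V)) x = ((4 * π ^ 2 * x : ℝ) : ℂ) ^ 2 * Vo V x := by
  rw [Vo_DV hV.DV hx, Vo_DV hV hx]; ring

/-- the size of a weight -/
noncomputable def KV (V : ℝ → ℂ) : ℝ := (∫ z : ℂ, ‖rad V z‖) + ∫ z : ℂ, ‖rad (DV (DV V)) z‖

theorem KV_nonneg (V : ℝ → ℂ) : 0 ≤ KV V := by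
  rw [KV]; positivity

theorem Vo_decay2 {V : ℝ → ℂ} (hV : Wt V) {x : ℝ} (hx : 0 ≤ x) :
    ‖Vo V x‖ ≤ 2 * KV V / (1 + x) ^ 2 := by
  rw [le_div_iff₀ (by positivity)]
  have h1 := norm_Vo_le V x
  have h2 := norm_Vo_le (DV (DV V)) x
  rw [Vo_DV_DV hV hx, norm_mul, norm_pow, Complex.norm_real,
    Real.norm_of_nonneg (by positivity)] at h2
  have h3 : x ^ 2 ≤ (4 * π ^ 2 * x) ^ 2 := by
    have hpi : 1 ≤ 4 * π ^ 2 := by nlinarith [Real.pi_gt_three]
    have : x ≤ 4 * π ^ 2 * x := by nlinarith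
    exact pow_le_pow_left₀ hx this 2
  have h4 : x ^ 2 * ‖Vo V x‖ ≤ (4 * π ^ 2 * x) ^ 2 * ‖Vo V x‖ :=
    mul_le_mul_of_nonneg_right h3 (norm_nonneg _)
  have h5 : ‖Vo V x‖ + x ^ 2 * ‖Vo V x‖ ≤ KV V := by rw [KV]; linarith
  have h6 : (1 + x) ^ 2 ≤ 2 * (1 + x ^ 2) := by nlinarith [sq_nonneg (1 - x)]
  calc ‖Vo V x‖ * (1 + x) ^ 2 ≤ ‖Vo V x‖ * (2 * (1 + x ^ 2)) :=
        mul_le_mul_of_nonneg_left h6 (norm_nonneg _)
    _ = 2 * (‖Vo V x‖ + x ^ 2 * ‖Vo V x‖) := by ring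
    _ ≤ 2 * KV V := by linarith

/-! ### lattice sums -/

theorem box_point (n : Fin 2 → ℤ) (hn : n ≠ 0) {x : Fin 2 → ℝ} (hx : x ∈ box (0 : Fin 2 → ℤ)) :
    ‖co (x + zv n)‖ ^ 2 ≤ 9 * ‖co (zv n)‖ ^ 2 := by
  have h1 : ‖co x‖ ≤ 2 := by
    have := norm_mem_box_zero hx
    have h2 := co_le_norm x
    linarith
  have h3 : 1 ≤ ‖co (zv n)‖ ^ 2 := by
    have h4 : co (zv n) = toC (iz.symm n) := by rw [← co_zv_iz, Equiv.apply_symm_apply]
    rw [h4, ← N_eq_sq_norm]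
    have h5 : iz.symm n ≠ 0 := by
      intro h
      apply hn
      have h6 : iz.symm n = iz.symm 0 := by rw [h]; rfl
      exact iz.symm.injective h6
    exact_mod_cast N_pos h5
  have h4 : 1 ≤ ‖co (zv n)‖ := by
    by_contra hc
    push Not at hc
    nlinarith [norm_nonneg (co (zv n))]
  have h5 : ‖co (x + zv n)‖ ≤ 3 * ‖co (zv n)‖ := by
    rw [co_add]
    refine (norm_add_le _ _).trans ?_
    linarith
  nlinarith [norm_nonneg (co (x + zv n))]

theorem integrable_base : Integrable fun z : ℂ => ((1 + ‖z‖ ^ 2) ^ 2)⁻¹ := by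
  have h1 : Integrable fun z : ℂ => (1 + ‖z‖) ^ (-4 : ℝ) :=
    integrable_one_add_norm (by rw [Complex.finrank_real_complex]; norm_num)
  refine (h1.const_mul 4).mono' (by fun_prop) (Eventually.of_forall fun z => ?_)
  have h2 : (1 + ‖z‖) ^ (-4 : ℝ) = ((1 + ‖z‖) ^ 4)⁻¹ := by
    rw [Real.rpow_neg (by positivity)]
    congr 1
    exact_mod_cast Real.rpow_natCast (1 + ‖z‖) 4
  rw [h2, Real.norm_of_nonneg (by positivity), inv_le_comm₀ (by positivity) (by positivity),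
    mul_inv, inv_inv]
  have h3 : (1 + ‖z‖) ^ 2 ≤ 2 * (1 + ‖z‖ ^ 2) := by nlinarith [sq_nonneg (1 - ‖z‖)]
  have h4 : ((1 + ‖z‖) ^ 2) ^ 2 ≤ (2 * (1 + ‖z‖ ^ 2)) ^ 2 :=
    pow_le_pow_left₀ (by positivity) h3 2
  nlinarith

/-- absolute constant -/
noncomputable def cB : ℝ := 18 / Real.sqrt 3 * ∫ z : ℂ, ((1 + ‖z‖ ^ 2) ^ 2)⁻¹

theorem cB_nonneg : 0 ≤ cB := by
  rw [cB]; positivity

/-- `∑_{h ≠ 0} (1 + T N(h))^{-2} ≤ C / T` for all `T > 0` -/
theorem sum_decay {T : ℝ} (hT : 0 < T) :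
    Summable (fun h : O => if h = 0 then 0 else ((1 + T * N h) ^ 2)⁻¹) ∧
      ∑' h : O, (if h = 0 then 0 else ((1 + T * N h) ^ 2)⁻¹) ≤ cB / T := by
  set t : ℝ := Real.sqrt T / 3 with ht
  have ht0 : 0 < t := by positivity
  have htC : (t : ℂ) ≠ 0 := by exact_mod_cast ht0.ne'
  have hi : Integrable fun x : Fin 2 → ℝ => ((1 + ‖(t : ℂ) * co x‖ ^ 2) ^ 2)⁻¹ := by
    have := integrable_affine 0 htC integrable_base
    simpa using this
  have hI : ∫ x : Fin 2 → ℝ, ((1 + ‖(t : ℂ) * co x‖ ^ 2) ^ 2)⁻¹ = cB / T := by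
    have := integral_affine (fun z : ℂ => ((1 + ‖z‖ ^ 2) ^ 2)⁻¹) 0 htC
    simp only [zero_add] at this
    rw [this, smul_eq_mul, cB, Complex.norm_real, Real.norm_of_nonneg ht0.le, ht, div_pow,
      Real.sq_sqrt hT.le]
    field_simp
    ring
  have hs := hasSum_integral_box hi
  rw [hI] at hs
  have hle : ∀ n : Fin 2 → ℤ, (if n = 0 then 0 else ((1 + T * N (iz.symm n)) ^ 2)⁻¹ : ℝ) ≤
      ∫ x in box (0 : Fin 2 → ℤ), ((1 + ‖(t : ℂ) * co (x + zv n)‖ ^ 2) ^ 2)⁻¹ := by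
    intro n
    split_ifs with hn
    · positivity
    · have h1 : ∀ x ∈ box (0 : Fin 2 → ℤ), ((1 + T * N (iz.symm n)) ^ 2)⁻¹ ≤
          ((1 + ‖(t : ℂ) * co (x + zv n)‖ ^ 2) ^ 2)⁻¹ := by
        intro x hx
        have h2 := box_point n hn hx
        have h4 : co (zv n) = toC (iz.symm n) := by rw [← co_zv_iz, Equiv.apply_symm_apply]
        rw [h4, ← N_eq_sq_norm] at h2
        have h5 : ‖(t : ℂ) * co (x + zv n)‖ ^ 2 ≤ T * N (iz.symm n) := by
          rw [norm_mul, mul_pow, Complex.norm_real, Real.norm_of_nonneg ht0.le, ht, div_pow,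
            Real.sq_sqrt hT.le]
          calc T / 3 ^ 2 * ‖co (x + zv n)‖ ^ 2 ≤ T / 3 ^ 2 * (9 * N (iz.symm n)) := by gcongr
            _ = T * N (iz.symm n) := by ring
        gcongr
      have hc : Continuous fun x : Fin 2 → ℝ => ((1 + ‖(t : ℂ) * co (x + zv n)‖ ^ 2) ^ 2)⁻¹ := by
        have h0 : Continuous fun x : Fin 2 → ℝ => (1 + ‖(t : ℂ) * co (x + zv n)‖ ^ 2) ^ 2 := by
          have := continuous_co
          fun_prop
        exact h0.inv₀ fun x => by positivity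
      have hfin : volume (box (0 : Fin 2 → ℤ)) ≠ ⊤ := by rw [volume_box_zero]; simp
      calc ((1 + T * N (iz.symm n)) ^ 2)⁻¹
          = ∫ x in box (0 : Fin 2 → ℤ), ((1 + T * N (iz.symm n)) ^ 2)⁻¹ := by
            rw [setIntegral_const, measureReal_def, volume_box_zero]; simp
        _ ≤ _ := by
            refine setIntegral_mono_on (integrableOn_const hfin) ?_ (measurableSet_box _) h1
            refine Measure.integrableOn_of_bounded (M := 1) hfin hc.aestronglyMeasurable ?_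
            refine Eventually.of_forall fun x => ?_
            rw [Real.norm_of_nonneg (by positivity)]
            apply inv_le_one_of_one_le₀
            apply one_le_pow₀
            linarith [sq_nonneg ‖(t : ℂ) * co (x + zv n)‖]
  have hs1 : Summable fun n : Fin 2 → ℤ =>
      (if n = 0 then 0 else ((1 + T * N (iz.symm n)) ^ 2)⁻¹ : ℝ) :=
    Summable.of_nonneg_of_le (fun n => by split_ifs <;> positivity) hle hs.summable
  have e1 : (fun h : O => (if h = 0 then 0 else ((1 + T * N h) ^ 2)⁻¹ : ℝ)) =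
      (fun n : Fin 2 → ℤ => (if n = 0 then 0 else ((1 + T * N (iz.symm n)) ^ 2)⁻¹ : ℝ)) ∘ iz := by
    funext h
    simp only [comp_apply, Equiv.symm_apply_apply]
    have h0 : iz h = 0 ↔ h = 0 := by
      rw [show (0 : Fin 2 → ℤ) = iz 0 from by
        ext i; fin_cases i <;> simp [iz]]
      exact iz.injective.eq_iff
    simp only [h0]
  constructor
  · rw [e1]
    exact (iz.summable_iff).2 hs1
  · rw [e1]
    have := iz.tsum_eq (fun n : Fin 2 → ℤ =>
      (if n = 0 then 0 else ((1 + T * N (iz.symm n)) ^ 2)⁻¹ : ℝ))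
    simp only [comp_def]
    rw [this, ← hs.tsum_eq]
    exact hs1.tsum_le_tsum hle hs.summable

/-- **Smooth Pólya–Vinogradov, general periodic weights.** -/
theorem pv_general {V : ℝ → ℂ} (hV : Wt V) {B : ℝ} (hB : 0 < B) {q : O} (hq : q ≠ 0)
    {S : Finset O} (hS : IsResSys q S) {ψ : O → ℂ} (hψ : Per q ψ) {G : ℝ} (hG0 : 0 ≤ G)
    (hG : ∀ h : O, h ≠ 0 → ‖GS q S ψ h‖ ≤ G) :
    ‖(∑' x : O, ψ x * V (N x / B)) - (2 * B / (Real.sqrt 3 * N q) : ℂ) * (GS q S ψ 0 * Vo V 0)‖ ≤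
      12 / Real.sqrt 3 * cB * KV V * G := by
  have hNq : (0 : ℝ) < N q := by exact_mod_cast N_pos hq
  have h := poisson_rad hV hB hq hS hψ
  have h2 := h.update 0 0
  have h3 : ((0 : ℂ) - (2 * B / (Real.sqrt 3 * N q) : ℂ) *
      (GS q S ψ 0 * Vo V (B * N (0 : O) / (3 * N q))) + ∑' x : O, ψ x * V (N x / B)) =
      (∑' x : O, ψ x * V (N x / B)) -
        (2 * B / (Real.sqrt 3 * N q) : ℂ) * (GS q S ψ 0 * Vo V 0) := by
    simp; ring
  rw [h3] at h2
  set T : ℝ := B / (3 * N q) with hT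
  have hT0 : 0 < T := by positivity
  obtain ⟨hs, hle⟩ := sum_decay hT0
  set c : ℝ := 2 * B / (Real.sqrt 3 * N q) * (G * (2 * KV V)) with hc
  have hb : ∀ h : O, ‖Function.update (fun h : O => (2 * B / (Real.sqrt 3 * N q) : ℂ) *
        (GS q S ψ h * Vo V (B * N h / (3 * N q)))) 0 0 h‖ ≤
      c * (if h = 0 then 0 else ((1 + T * N h) ^ 2)⁻¹) := by
    intro h
    by_cases h0 : h = 0
    · subst h0; simp
    · rw [Function.update_of_ne h0, if_neg h0, norm_mul, norm_mul]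
      have e1 : ‖(2 * B / (Real.sqrt 3 * N q) : ℂ)‖ = 2 * B / (Real.sqrt 3 * N q) := by
        have : (2 * B / (Real.sqrt 3 * N q) : ℂ) = ((2 * B / (Real.sqrt 3 * N q) : ℝ) : ℂ) := by
          push_cast; rfl
        rw [this, Complex.norm_real, Real.norm_of_nonneg (by positivity)]
      have e2 : B * N h / (3 * N q) = T * N h := by rw [hT]; ring
      have e3 := Vo_decay2 hV (x := T * N h) (by positivity)
      rw [e1, e2, hc]
      calc 2 * B / (Real.sqrt 3 * N q) * (‖GS q S ψ h‖ * ‖Vo V (T * N h)‖)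
          ≤ 2 * B / (Real.sqrt 3 * N q) * (G * (2 * KV V / (1 + T * N h) ^ 2)) := by
            gcongr
            exact hG h h0
        _ = _ := by ring
  have hbs := hs.mul_left c
  have h5 : ‖∑' h : O, Function.update (fun h : O => (2 * B / (Real.sqrt 3 * N q) : ℂ) *
        (GS q S ψ h * Vo V (B * N h / (3 * N q)))) 0 0 h‖ ≤
      ∑' h : O, c * (if h = 0 then 0 else ((1 + T * N h) ^ 2)⁻¹) :=
    tsum_of_norm_bounded hbs.hasSum hb
  rw [h2.tsum_eq, tsum_mul_left] at h5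
  refine h5.trans ?_
  have hK := KV_nonneg V
  calc c * ∑' h : O, (if h = 0 then 0 else ((1 + T * N h) ^ 2)⁻¹) ≤ c * (cB / T) := by
        gcongr
    _ = 12 / Real.sqrt 3 * cB * KV V * G := by
        rw [hc, hT]
        field_simp
        ring

end Vale.Agent.P006.PO
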