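import Vale.Agent.P006.H485.Schwartz
import Mathlib.Analysis.Complex.Isometry
import Mathlib.Analysis.InnerProductSpace.Calculus

/-!
# P006, block PO: radial weights

`rad V z = V (‖z‖²)`, its Fourier transform `Vo V`, Poisson summation in radial form.
-/

open MeasureTheory Filter Topology Function Set
open scoped FourierTransform Real SchwartzMap ComplexConjugate ContDiff

namespace Vale.Agent.P006.PO

/-- the radial function `z ↦ V (‖z‖²)` -/
noncomputable def rad (V : ℝ → ℂ) (z : ℂ) : ℂ := V (‖z‖ ^ 2)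

/-- `V^o(t) = ∫_ℂ V(|z|²) e(-Tr(z √t)) dz` -/
noncomputable def Vo (V : ℝ → ℂ) (t : ℝ) : ℂ := FT (rad V) (Real.sqrt t : ℝ)

/-- admissible weights: smooth and compactly supported -/
structure Wt (V : ℝ → ℂ) : Prop where
  smooth : ContDiff ℝ ∞ V
  supp : HasCompactSupport V

theorem exists_circle (y : ℂ) : ∃ a : Circle, (a : ℂ) * y = (‖y‖ : ℝ) := by
  by_cases hy : y = 0
  · exact ⟨1, by simp [hy]⟩
  · have hy' : (‖y‖ : ℂ) ≠ 0 := by simpa using hy
    have h1 : conj y / ‖y‖ ∈ Submonoid.unitSphere ℂ := by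
      rw [← SetLike.mem_coe, Submonoid.coe_unitSphere, mem_sphere_zero_iff_norm, norm_div,
        Complex.norm_conj, Complex.norm_real, norm_norm, div_self (norm_ne_zero_iff.2 hy)]
    refine ⟨⟨conj y / ‖y‖, h1⟩, ?_⟩
    change conj y / ‖y‖ * y = _
    rw [div_mul_eq_mul_div, mul_comm, Complex.mul_conj, Complex.normSq_eq_norm_sq]
    push_cast
    field_simp

/-- the Fourier transform of a radial function is radial -/
theorem FT_rad (V : ℝ → ℂ) (y : ℂ) : FT (rad V) y = Vo V (‖y‖ ^ 2) := by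
  obtain ⟨a, ha⟩ := exists_circle y
  rw [Vo, Real.sqrt_sq (norm_nonneg _), FT, FT, ← ha]
  have hmp : MeasurePreserving (rotation a) (volume : Measure ℂ) volume :=
    (rotation a).measurePreserving
  have h := hmp.integral_comp (rotation a).toHomeomorph.measurableEmbedding
    (fun z : ℂ => eT (-(z * y)) * rad V z)
  rw [← h]
  congr 1
  funext z
  simp only [rotation_apply, rad, norm_mul, Circle.norm_coe, one_mul]
  congr 2
  ring

theorem Vo_norm_sq (V : ℝ → ℂ) (y : ℂ) : Vo V (‖y‖ ^ 2) = FT (rad V) y := (FT_rad V y).symm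

/-- scaling -/
theorem FT_scale (f : ℂ → ℂ) {t : ℝ} (ht : 0 < t) (y : ℂ) :
    FT (fun z => f (z / t)) y = (t : ℂ) ^ 2 * FT f (t * y) := by
  have h := Measure.integral_comp_inv_smul (volume : Measure ℂ)
    (fun z : ℂ => eT (-(z * (t * y))) * f z) t
  rw [Complex.finrank_real_complex] at h
  have h2 : |t ^ 2| = t ^ 2 := abs_of_nonneg (by positivity)
  rw [h2, Complex.real_smul] at h
  rw [FT, FT]
  push_cast at h
  rw [← h]
  congr 1
  funext z
  have ht' : (t : ℂ) ≠ 0 := by exact_mod_cast ht.ne'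
  rw [Complex.real_smul]
  push_cast
  congr 2
  · field_simp
  · field_simp

theorem rad_scale (V : ℝ → ℂ) {B : ℝ} (hB : 0 < B) (z : ℂ) :
    rad (fun x => V (x / B)) z = rad V (z / (Real.sqrt B : ℝ)) := by
  rw [rad, rad, norm_div, Complex.norm_real, div_pow, Real.norm_of_nonneg (Real.sqrt_nonneg _),
    Real.sq_sqrt hB.le]

theorem Vo_scale (V : ℝ → ℂ) {B : ℝ} (hB : 0 < B) {t : ℝ} (ht : 0 ≤ t) :
    Vo (fun x => V (x / B)) t = B * Vo V (B * t) := by
  have h : (fun z => rad (fun x => V (x / B)) z) = fun z => rad V (z / (Real.sqrt B : ℝ)) := by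
    funext z; exact rad_scale V hB z
  rw [Vo, show rad (fun x => V (x / B)) = fun z => rad V (z / (Real.sqrt B : ℝ)) from h,
    FT_scale _ (Real.sqrt_pos.2 hB), FT_rad]
  have h1 : ((Real.sqrt B : ℝ) : ℂ) ^ 2 = (B : ℂ) := by
    exact_mod_cast congrArg ((↑) : ℝ → ℂ) (Real.sq_sqrt hB.le)
  rw [h1]
  congr 2
  rw [norm_mul, Complex.norm_real, Complex.norm_real, mul_pow, Real.norm_of_nonneg
    (Real.sqrt_nonneg _), Real.norm_of_nonneg (Real.sqrt_nonneg _), Real.sq_sqrt hB.le,
    Real.sq_sqrt ht]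

namespace Wt

variable {V : ℝ → ℂ}

theorem scale (hV : Wt V) {B : ℝ} (hB : 0 < B) : Wt fun x => V (x / B) where
  smooth := hV.smooth.comp (contDiff_id.div_const B)
  supp := by
    have h : (fun x : ℝ => V (x / B)) = V ∘ (Homeomorph.mulRight₀ B⁻¹ (inv_ne_zero hB.ne')) := by
      funext x; simp [div_eq_mul_inv]
    rw [h]
    exact hV.supp.comp_homeomorph _

theorem rad_contDiff (hV : Wt V) : ContDiff ℝ ∞ (rad V) :=
  hV.smooth.comp (contDiff_norm_sq ℝ)

theorem exists_bound (hV : Wt V) : ∃ R : ℝ, 0 < R ∧ ∀ x, R < |x| → V x = 0 := by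
  obtain ⟨R, hR⟩ := hV.supp.isBounded.subset_closedBall (0 : ℝ)
  refine ⟨max R 1, by positivity, fun x hx => ?_⟩
  by_contra hne
  have h1 : x ∈ tsupport V := subset_tsupport _ hne
  have h2 := hR h1
  rw [mem_closedBall_zero_iff, Real.norm_eq_abs] at h2
  have := le_max_left R 1
  linarith

theorem rad_compact (hV : Wt V) : HasCompactSupport (rad V) := by
  obtain ⟨R, hR, h⟩ := hV.exists_bound
  refine HasCompactSupport.intro (isCompact_closedBall (0 : ℂ) (Real.sqrt R)) fun z hz => ?_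
  rw [mem_closedBall_zero_iff, not_le] at hz
  apply h
  rw [abs_of_nonneg (by positivity)]
  calc R = Real.sqrt R ^ 2 := (Real.sq_sqrt hR.le).symm
    _ < ‖z‖ ^ 2 := by gcongr

/-- the radial Schwartz function attached to a weight -/
noncomputable def radS (hV : Wt V) : 𝓢(ℂ, ℂ) := hV.rad_compact.toSchwartzMap hV.rad_contDiff

@[simp] theorem radS_apply (hV : Wt V) (z : ℂ) : hV.radS z = rad V z := rfl

theorem coe_radS (hV : Wt V) : (hV.radS : ℂ → ℂ) = rad V := rfl

theorem rad_continuous (hV : Wt V) : Continuous (rad V) := hV.radS.continuous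

theorem rad_dec (hV : Wt V) : Dec (rad V) := schwartz_dec hV.radS

theorem FT_rad_dec (hV : Wt V) : Dec (FT (rad V)) := FT_schwartz_dec hV.radS

/-- rapid decay of `V^o` -/
theorem Vo_decay (hV : Wt V) (k : ℕ) : ∃ C : ℝ, 0 ≤ C ∧ ∀ t : ℝ, 0 ≤ t →
    (1 + t) ^ k * ‖Vo V t‖ ≤ C := by
  obtain ⟨C, h0, hC⟩ := FT_schwartz_decay hV.radS (2 * k)
  refine ⟨C, h0, fun t ht => ?_⟩
  have h1 := hC (Real.sqrt t : ℝ)
  rw [coe_radS] at h1
  refine le_trans ?_ h1
  rw [Complex.norm_real, Real.norm_of_nonneg (Real.sqrt_nonneg _), pow_mul, Vo]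
  gcongr
  have := Real.sq_sqrt ht
  nlinarith [Real.sqrt_nonneg t]

theorem Vo_continuous (hV : Wt V) : Continuous (Vo V) := by
  have h := continuous_FT_schwartz hV.radS
  rw [coe_radS] at h
  exact h.comp (Complex.continuous_ofReal.comp Real.continuous_sqrt)

end Wt

/-- **Poisson summation on `O` for radial weights and periodic coefficients.** -/
theorem poisson_rad {V : ℝ → ℂ} (hV : Wt V) {B : ℝ} (hB : 0 < B) {q : O} (hq : q ≠ 0)
    {S : Finset O} (hS : IsResSys q S) {ψ : O → ℂ} (hψ : Per q ψ) :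
    HasSum (fun h : O => (2 * B / (Real.sqrt 3 * N q) : ℂ) *
        (GS q S ψ h * Vo V (B * N h / (3 * N q))))
      (∑' x : O, ψ x * V (N x / B)) := by
  have hV' := hV.scale hB
  have h := poisson_per hV'.rad_continuous hV'.rad_dec hV'.FT_rad_dec hq hS hψ
  have e1 : ∀ x : O, rad (fun x => V (x / B)) (toC x) = V (N x / B) := by
    intro x; rw [rad, N_eq_sq_norm]
  simp only [e1] at h
  have e2 : ∀ h : O, FT (rad fun x => V (x / B)) (toC h / (toC rt3 * toC q)) =
      B * Vo V (B * N h / (3 * N q)) := by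
    intro h
    rw [FT_rad, Vo_scale V hB (by positivity)]
    congr 2
    rw [norm_div, norm_mul, div_pow, mul_pow, ← N_eq_sq_norm, ← N_eq_sq_norm, ← N_eq_sq_norm,
      N_rt3]
    push_cast
    ring
  simp only [e2] at h
  convert h using 1
  funext h
  ring

end Vale.Agent.P006.PO
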