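import Vale.Agent.P006.H485.Radial
import Mathlib.Analysis.Distribution.SchwartzSpace.Deriv

/-!
# P006, block PO: radial Laplacian

`x V^o(x) = -(1/(4π²)) (D V)^o(x)` with `D V = (x V')'`, and uniform decay of `V^o`.
-/

open MeasureTheory Filter Topology Function Set
open scoped FourierTransform Real SchwartzMap ComplexConjugate ContDiff LineDeriv

namespace Vale.Agent.P006.PO

theorem fourier_lineDeriv_apply (f : 𝓢(ℂ, ℂ)) (m w : ℂ) :
    (𝓕 (∂_{m} f) : 𝓢(ℂ, ℂ)) w = (2 * π * Complex.I * (inner ℝ w m : ℝ)) * (𝓕 f : 𝓢(ℂ, ℂ)) w := by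
  rw [SchwartzMap.fourier_lineDerivOp_eq]
  have : (inner ℝ · m : ℂ → ℝ).HasTemperateGrowth := ((innerSL ℝ).flip m).hasTemperateGrowth
  rw [_root_.smul_apply, SchwartzMap.smulLeftCLM_apply_apply this, Complex.real_smul,
    smul_eq_mul]
  ring

/-- `FT` of the second derivative in direction `m` -/
theorem FT_lineDeriv2 (f : 𝓢(ℂ, ℂ)) (m y : ℂ) :
    FT (∂_{m} (∂_{m} f) : 𝓢(ℂ, ℂ)) y =
      (2 * π * Complex.I * (inner ℝ (2 * conj y) m : ℝ)) ^ 2 * FT f y := by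
  have h1 := fourier_lineDeriv_apply (∂_{m} f) m (2 * conj y)
  rw [fourier_lineDeriv_apply f m (2 * conj y)] at h1
  rw [FT_eq_fourier, FT_eq_fourier]
  rw [SchwartzMap.fourier_coe, SchwartzMap.fourier_coe] at h1
  rw [h1]
  ring

/-- `D V = (x V')' = V' + x V''` -/
noncomputable def DV (V : ℝ → ℂ) (x : ℝ) : ℂ := deriv V x + x * deriv (deriv V) x

namespace Wt

variable {V : ℝ → ℂ}

theorem deriv (hV : Wt V) : Wt (deriv V) where
  smooth := ((contDiff_infty_iff_deriv (𝕜 := ℝ)).1 hV.smooth).2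
  supp := hV.supp.deriv

theorem add {W : ℝ → ℂ} (hV : Wt V) (hW : Wt W) : Wt fun x => V x + W x where
  smooth := hV.smooth.add hW.smooth
  supp := hV.supp.add hW.supp

theorem mul_left (hV : Wt V) {g : ℝ → ℂ} (hg : ContDiff ℝ ∞ g) : Wt fun x => g x * V x where
  smooth := hg.mul hV.smooth
  supp := hV.supp.mul_left

theorem const_mul (hV : Wt V) (c : ℂ) : Wt fun x => c * V x := hV.mul_left contDiff_const

theorem DV (hV : Wt V) : Wt (DV V) :=
  hV.deriv.add (hV.deriv.deriv.mul_left Complex.ofRealCLM.contDiff)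

theorem hasDerivAt (hV : Wt V) (x : ℝ) : HasDerivAt V (_root_.deriv V x) x :=
  ((hV.smooth.differentiable (by simp)) x).hasDerivAt

end Wt

/-- first derivative of a radial function in direction `m` -/
theorem hasDerivAt_rad_line {V : ℝ → ℂ} (hV : Wt V) (z m : ℂ) :
    HasDerivAt (fun t : ℝ => rad V (z + t • m))
      (2 * (inner ℝ z m : ℝ) * rad (deriv V) z) 0 := by
  have h1 : HasDerivAt (fun t : ℝ => ‖z + t • m‖ ^ 2) (2 * inner ℝ z m) 0 := by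
    have h2 : (fun t : ℝ => ‖z + t • m‖ ^ 2) =
        fun t : ℝ => ‖z‖ ^ 2 + 2 * inner ℝ z m * t + ‖m‖ ^ 2 * t ^ 2 := by
      funext t
      rw [norm_add_sq_real, inner_smul_right, norm_smul, mul_pow, Real.norm_eq_abs, sq_abs]
      ring
    rw [h2]
    have h3 : HasDerivAt (fun t : ℝ => ‖z‖ ^ 2 + 2 * inner ℝ z m * t + ‖m‖ ^ 2 * t ^ 2)
        (0 + 2 * inner ℝ z m * 1 + ‖m‖ ^ 2 * (2 * (0 : ℝ) ^ (2 - 1) * 1)) 0 := by
      refine ((hasDerivAt_const _ _).add ((hasDerivAt_id (0 : ℝ)).const_mul _)).add ?_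
      have := ((hasDerivAt_id (0 : ℝ)).pow 2).const_mul (‖m‖ ^ 2)
      simpa using this
    simpa using h3
  have h4 : HasDerivAt V (deriv V (‖z + (0 : ℝ) • m‖ ^ 2)) (‖z + (0 : ℝ) • m‖ ^ 2) :=
    hV.hasDerivAt _
  have h5 := h4.scomp (0 : ℝ) h1
  simp only [zero_smul, add_zero] at h5
  have h6 : (V ∘ fun t : ℝ => ‖z + t • m‖ ^ 2) = fun t : ℝ => rad V (z + t • m) := by
    funext t; rfl
  rw [h6, Complex.real_smul] at h5
  push_cast at h5 ⊢
  exact h5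

theorem lineDeriv_rad {V : ℝ → ℂ} (hV : Wt V) (z m : ℂ) :
    lineDeriv ℝ (rad V) z m = 2 * (inner ℝ z m : ℝ) * rad (deriv V) z :=
  (hasDerivAt_rad_line hV z m).deriv

/-- second derivative of a radial function in direction `m` -/
theorem lineDeriv2_rad {V : ℝ → ℂ} (hV : Wt V) (z m : ℂ) :
    (∂_{m} (∂_{m} hV.radS) : 𝓢(ℂ, ℂ)) z =
      2 * (‖m‖ ^ 2 : ℝ) * rad (deriv V) z + (2 * (inner ℝ z m : ℝ)) ^ 2 * rad (deriv (deriv V)) z := by
  rw [SchwartzMap.lineDerivOp_apply]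
  have h0 : ((∂_{m} hV.radS : 𝓢(ℂ, ℂ)) : ℂ → ℂ) = fun z => 2 * (inner ℝ z m : ℝ) * rad (deriv V) z := by
    funext z
    rw [SchwartzMap.lineDerivOp_apply, Wt.coe_radS, lineDeriv_rad hV]
  rw [h0]
  have h1 := hasDerivAt_rad_line hV.deriv z m
  have h2 : HasDerivAt (fun t : ℝ => (2 * ((inner ℝ (z + t • m) m : ℝ) : ℂ)))
      (2 * ((‖m‖ ^ 2 : ℝ) : ℂ)) 0 := by
    have h3 : (fun t : ℝ => (2 * ((inner ℝ (z + t • m) m : ℝ) : ℂ))) =
        fun t : ℝ => 2 * ((inner ℝ z m : ℝ) : ℂ) + 2 * ((‖m‖ ^ 2 : ℝ) : ℂ) * ((t : ℝ) : ℂ) := by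
      funext t
      rw [inner_add_left, real_inner_smul_left, real_inner_self_eq_norm_sq]
      push_cast; ring
    rw [h3]
    have h4 := ((Complex.ofRealCLM.hasDerivAt (x := (0 : ℝ))).const_mul
      (2 * ((‖m‖ ^ 2 : ℝ) : ℂ))).const_add (2 * ((inner ℝ z m : ℝ) : ℂ))
    simpa using h4
  have h5 := h2.mul h1
  have h6 : lineDeriv ℝ (fun z => 2 * ((inner ℝ z m : ℝ) : ℂ) * rad (deriv V) z) z m =
      2 * ((‖m‖ ^ 2 : ℝ) : ℂ) * rad (deriv V) (z + (0 : ℝ) • m) +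
      2 * ((inner ℝ (z + (0 : ℝ) • m) m : ℝ) : ℂ) *
        (2 * (inner ℝ z m : ℝ) * rad (deriv (deriv V)) z) := h5.deriv
  rw [h6, zero_smul, add_zero]
  ring

theorem laplace_rad {V : ℝ → ℂ} (hV : Wt V) (z : ℂ) :
    (∂_{(1 : ℂ)} (∂_{(1 : ℂ)} hV.radS) : 𝓢(ℂ, ℂ)) z +
      (∂_{Complex.I} (∂_{Complex.I} hV.radS) : 𝓢(ℂ, ℂ)) z = 4 * rad (DV V) z := by
  rw [lineDeriv2_rad, lineDeriv2_rad, rad, rad, rad, DV]
  have h1 : (inner ℝ z (1 : ℂ) : ℝ) = z.re := by simp [Complex.inner]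
  have h2 : (inner ℝ z Complex.I : ℝ) = z.im := by simp [Complex.inner]
  have h3 : (‖z‖ ^ 2 : ℝ) = z.re ^ 2 + z.im ^ 2 := by
    rw [← Complex.normSq_eq_norm_sq, Complex.normSq_apply]; ring
  rw [h1, h2, h3]
  simp only [norm_one, Complex.norm_I]
  push_cast
  ring

/-- **The radial Laplacian identity** -/
theorem Vo_DV {V : ℝ → ℂ} (hV : Wt V) {x : ℝ} (hx : 0 ≤ x) :
    Vo (DV V) x = -(4 * π ^ 2 * x : ℝ) * Vo V x := by
  set y : ℂ := ((Real.sqrt x : ℝ) : ℂ) with hy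
  have h1 := FT_lineDeriv2 hV.radS 1 y
  have h2 := FT_lineDeriv2 hV.radS Complex.I y
  have h3 : FT (∂_{(1 : ℂ)} (∂_{(1 : ℂ)} hV.radS) : 𝓢(ℂ, ℂ)) y +
      FT (∂_{Complex.I} (∂_{Complex.I} hV.radS) : 𝓢(ℂ, ℂ)) y = 4 * FT (rad (DV V)) y := by
    rw [FT, FT, FT, ← integral_add, ← integral_const_mul]
    · congr 1
      funext z
      rw [← mul_add, laplace_rad hV]
      ring
    · exact (SchwartzMap.integrable _).bdd_mul (c := 1)
        (continuous_eT.comp (by fun_prop)).aestronglyMeasurable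
        (Eventually.of_forall fun z => (norm_eT _).le)
    · exact (SchwartzMap.integrable _).bdd_mul (c := 1)
        (continuous_eT.comp (by fun_prop)).aestronglyMeasurable
        (Eventually.of_forall fun z => (norm_eT _).le)
  have h4 : (inner ℝ (2 * conj y) (1 : ℂ) : ℝ) = 2 * Real.sqrt x := by
    simp [Complex.inner, hy]
  have h5 : (inner ℝ (2 * conj y) Complex.I : ℝ) = 0 := by
    simp [Complex.inner, hy]
  rw [h1, h2, h4, h5, Wt.coe_radS] at h3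
  have h6 : ((Real.sqrt x : ℝ) : ℂ) ^ 2 = (x : ℂ) := by
    exact_mod_cast congrArg ((↑) : ℝ → ℂ) (Real.sq_sqrt hx)
  rw [Vo, Vo, ← hy]
  have h7 : (2 * (π : ℂ) * Complex.I * ((2 * Real.sqrt x : ℝ) : ℂ)) ^ 2 = -(16 * π ^ 2 * x) := by
    push_cast
    rw [mul_pow, mul_pow, mul_pow, mul_pow, h6, Complex.I_sq]
    ring
  rw [h7] at h3
  push_cast at h3 ⊢
  linear_combination (-1 / 4 : ℂ) * h3

end Vale.Agent.P006.PO
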