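import Vale.Agent.P006.H485.Poisson2
import Vale.Agent.P006.CR.Basic

/-!
# P006, block PO: Poisson summation on `O = ℤ[ω]`

Change of variables between `ℝ²` and `ℂ`, the pairing, summability over `O`.
-/

open MeasureTheory Filter Topology Function Set
open scoped FourierTransform Real

namespace Vale.Agent.P006.PO

/-- `√-3 = 1 + 2ω` in `O` -/
def rt3 : O := ⟨1, 2⟩

theorem rt3_sq : rt3 * rt3 = -3 := by decide

@[simp] theorem N_rt3 : N rt3 = 3 := by decide

theorem toC_rt3 : toC rt3 = (Real.sqrt 3 : ℂ) * Complex.I := by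
  apply Complex.ext
  · rw [toC_re]; simp [rt3]
  · rw [toC_im]; simp [rt3]; ring

theorem rt3_ne_zero : rt3 ≠ 0 := by decide

theorem toC_rt3_ne_zero : toC rt3 ≠ 0 := by
  simpa using rt3_ne_zero

theorem norm_toC_rt3 : ‖toC rt3‖ = Real.sqrt 3 := by
  rw [norm_toC, N_rt3]; norm_num

/-- `e(Tr z)` on `ℂ` -/
noncomputable def eT (z : ℂ) : ℂ := e (TrC z)

theorem eT_add (z w : ℂ) : eT (z + w) = eT z * eT w := by
  rw [eT, TrC_add, e_add]; rfl

@[simp] theorem eT_zero : eT 0 = 1 := by simp [eT]

theorem eT_neg (z : ℂ) : eT (-z) = (starRingEnd ℂ) (eT z) := by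
  rw [eT, TrC_neg, e_neg]; rfl

@[simp] theorem norm_eT (z : ℂ) : ‖eT z‖ = 1 := norm_e _

@[simp] theorem eT_toC (z : O) : eT (toC z) = 1 := e_TrC_toC z

theorem continuous_eT : Continuous eT := by
  unfold eT e TrC
  fun_prop

theorem eT_sub (z w : ℂ) : eT (z - w) = eT z * (starRingEnd ℂ) (eT w) := by
  rw [sub_eq_add_neg, eT_add, eT_neg]

theorem TrC_ofReal_mul (t : ℝ) (z : ℂ) : TrC (t * z) = t * TrC z := by
  simp [TrC]; ring

/-- the trace dual pairing: `Tr(x / √-3) = x.im` for `x ∈ O` -/
theorem TrC_div_rt3 (x : O) : TrC (toC x / toC rt3) = (x.im : ℝ) := by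
  have h3 : Real.sqrt 3 * Real.sqrt 3 = 3 := Real.mul_self_sqrt (by norm_num)
  have h4 : Real.sqrt 3 ≠ 0 := by positivity
  have h : toC x / toC rt3 = - (Complex.I * toC x) / (Real.sqrt 3 : ℂ) := by
    rw [toC_rt3]
    have h6 : ((Real.sqrt 3 : ℝ) : ℂ) ≠ 0 := by exact_mod_cast h4
    field_simp
    rw [Complex.I_sq]; ring
  rw [h, TrC, Complex.div_ofReal_re]
  have h5 : (-(Complex.I * toC x)).re = (toC x).im := by simp
  rw [h5, toC_im]
  field_simp

/-- real coordinates `x0 + x1 ω` -/
noncomputable def co (x : Fin 2 → ℝ) : ℂ := x 0 + x 1 * omC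

theorem co_add (x y : Fin 2 → ℝ) : co (x + y) = co x + co y := by
  simp [co]; ring

theorem continuous_co : Continuous co := by
  unfold co
  fun_prop

/-- integer coordinates of an element of `O` -/
def iz : O ≃ (Fin 2 → ℤ) where
  toFun x := ![x.re, x.im]
  invFun m := ⟨m 0, m 1⟩
  left_inv x := by ext <;> simp
  right_inv m := by ext i; fin_cases i <;> simp

theorem co_zv_iz (x : O) : co (zv (iz x)) = toC x := by
  simp [co, zv, iz, toC_apply]

/-- dual integer coordinates of an element of `O` -/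
def izd : O ≃ (Fin 2 → ℤ) where
  toFun h := ![h.im, h.re - h.im]
  invFun m := ⟨m 0 + m 1, m 0⟩
  left_inv x := by ext <;> simp
  right_inv m := by ext i; fin_cases i <;> simp

/-- the additive characters of `ℝ²/ℤ²` in terms of `O` -/
theorem ch_izd (h : O) (x : Fin 2 → ℝ) : ch (izd h) x = eT (co x * (toC h / toC rt3)) := by
  have h1 : TrC (co x * (toC h / toC rt3)) = ∑ i, (izd h i : ℝ) * x i := by
    have : co x * (toC h / toC rt3) = (x 0 : ℂ) * (toC h / toC rt3) +
        (x 1 : ℂ) * (toC (om * h) / toC rt3) := by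
      rw [co, map_mul, toC_om]; ring
    rw [this, TrC_add, TrC_ofReal_mul, TrC_ofReal_mul, TrC_div_rt3, TrC_div_rt3]
    simp [izd, om, Fin.sum_univ_two]
    ring
  rw [ch, eT, e, h1]

/-! ### change of variables -/

/-- the real linear map `z ↦ q (re z + im z ω)` -/
noncomputable def linMap (q : ℂ) : ℂ →ₗ[ℝ] ℂ where
  toFun z := q * (z.re + z.im * omC)
  map_add' z w := by simp; ring
  map_smul' t z := by simp; ring

theorem linMap_apply (q z : ℂ) : linMap q z = q * (z.re + z.im * omC) := rfl

theorem det_linMap (q : ℂ) : LinearMap.det (linMap q) = ‖q‖ ^ 2 * (Real.sqrt 3 / 2) := by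
  rw [← LinearMap.det_toMatrix Complex.basisOneI, Matrix.det_fin_two]
  simp only [LinearMap.toMatrix_apply, Complex.coe_basisOneI, Complex.coe_basisOneI_repr,
    linMap_apply]
  simp [omC]
  rw [← Complex.normSq_eq_norm_sq, Complex.normSq_apply]
  ring

theorem linMap_eq (q : ℂ) (x : Fin 2 → ℝ) :
    linMap q (Complex.measurableEquivPi.symm x) = q * co x := by
  rw [linMap_apply, Complex.measurableEquivPi_symm_apply, co]
  simp

theorem map_linMap {q : ℂ} (hq : q ≠ 0) :
    Measure.map (linMap q) (volume : Measure ℂ) =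
      ENNReal.ofReal (2 / (Real.sqrt 3 * ‖q‖ ^ 2)) • (volume : Measure ℂ) := by
  have hq' : 0 < ‖q‖ := norm_pos_iff.2 hq
  have hd : LinearMap.det (linMap q) ≠ 0 := by rw [det_linMap]; positivity
  rw [Measure.map_linearMap_addHaar_eq_smul_addHaar _ hd, det_linMap, abs_of_pos (by positivity)]
  congr 2
  field_simp

theorem map_affine (a : ℂ) {q : ℂ} (hq : q ≠ 0) :
    Measure.map (fun x : Fin 2 → ℝ => a + q * co x) volume =
      ENNReal.ofReal (2 / (Real.sqrt 3 * ‖q‖ ^ 2)) • (volume : Measure ℂ) := by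
  have hm : Measurable (linMap q) := (LinearMap.continuous_of_finiteDimensional _).measurable
  have h1 : (fun x : Fin 2 → ℝ => a + q * co x) =
      (fun z => a + z) ∘ (linMap q) ∘ Complex.measurableEquivPi.symm := by
    funext x
    simp only [comp_apply, linMap_eq]
  rw [h1, ← Measure.map_map (measurable_const_add a) (hm.comp (MeasurableEquiv.measurable _)),
    ← Measure.map_map hm (MeasurableEquiv.measurable _),
    Complex.volume_preserving_equiv_pi.symm.map_eq, map_linMap hq, Measure.map_smul,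
    (measurePreserving_add_left (volume : Measure ℂ) a).map_eq]

/-- the affine parametrisation is a measurable embedding -/
theorem measurableEmbedding_affine (a : ℂ) {q : ℂ} (hq : q ≠ 0) :
    MeasurableEmbedding (fun x : Fin 2 → ℝ => a + q * co x) := by
  have hq' : 0 < ‖q‖ := norm_pos_iff.2 hq
  have hd : LinearMap.det (linMap q) ≠ 0 := by rw [det_linMap]; positivity
  have h1 : (fun x : Fin 2 → ℝ => a + q * co x) =
      (fun z => a + z) ∘ (linMap q) ∘ Complex.measurableEquivPi.symm := by
    funext x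
    simp only [comp_apply, linMap_eq]
  rw [h1]
  refine (measurableEmbedding_addLeft a).comp (MeasurableEmbedding.comp ?_
    (MeasurableEquiv.measurableEmbedding _))
  exact ((LinearMap.equivOfDetNeZero (linMap q) hd).toContinuousLinearEquiv.toHomeomorph).measurableEmbedding

theorem integral_affine {E : Type*} [NormedAddCommGroup E] [NormedSpace ℝ E] (g : ℂ → E)
    (a : ℂ) {q : ℂ} (hq : q ≠ 0) :
    ∫ x : Fin 2 → ℝ, g (a + q * co x) = (2 / (Real.sqrt 3 * ‖q‖ ^ 2)) • ∫ z, g z := by
  rw [← (measurableEmbedding_affine a hq).integral_map, map_affine a hq, integral_smul_measure,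
    ENNReal.toReal_ofReal (by positivity)]

theorem integrable_affine {E : Type*} [NormedAddCommGroup E] {g : ℂ → E}
    (a : ℂ) {q : ℂ} (hq : q ≠ 0) (hg : Integrable g) :
    Integrable fun x : Fin 2 → ℝ => g (a + q * co x) := by
  have h : Integrable g (Measure.map (fun x : Fin 2 → ℝ => a + q * co x) volume) := by
    rw [map_affine a hq]
    exact hg.smul_measure ENNReal.ofReal_ne_top
  exact h.comp_measurable (measurableEmbedding_affine a hq).measurable

end Vale.Agent.P006.PO
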