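import Vale.Agent.P006.H485.Decay
import Vale.Agent.P006.V1.Complete
import Vale.Agent.P006.CLS.Final
import Vale.Agent.P006.H845.Sqf

/-!
# P006, block PO: smooth Pólya–Vinogradov for cubic characters
-/

open MeasureTheory Filter Topology Function Set
open scoped FourierTransform Real SchwartzMap ComplexConjugate ContDiff

namespace Vale.Agent.P006.PO

open V1 (rsum rsum_eq_sum E)

/-! ### residue systems and complete sums -/

/-- a complete residue system modulo `q` -/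
noncomputable def resSet (q : O) : Finset O :=
  if hq : q = 0 then ∅ else
    have : NeZero q := ⟨hq⟩
    (Finset.univ : Finset (Rs q)).image (fun x : Rs q => Quotient.out x)

theorem isResSys_resSet {q : O} (hq : q ≠ 0) : IsResSys q (resSet q) := by
  have : NeZero q := ⟨hq⟩
  intro x
  rw [resSet, dif_neg hq]
  refine ⟨Quotient.out (rs q x), ⟨Finset.mem_image_of_mem _ (Finset.mem_univ _), ?_⟩, ?_⟩
  · rw [← rs_eq]; exact (V1.rs_out _).symm
  · rintro y ⟨hy, hd⟩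
    obtain ⟨z, _, rfl⟩ := Finset.mem_image.1 hy
    congr 1
    rw [← V1.rs_out z, ← rs_eq.2 hd]

theorem sum_resSys {q : O} (hq : q ≠ 0) {S : Finset O} (hS : IsResSys q S) {F : O → ℂ}
    (hF : V1.Per q F) : ∑ a ∈ S, F a = rsum q F := by
  have : NeZero q := ⟨hq⟩
  rw [rsum_eq_sum]
  refine Finset.sum_bij (fun a _ => rs q a) (fun a _ => Finset.mem_univ _) ?_ ?_ ?_
  · intro a ha b hb hab
    exact (hS a).unique ⟨ha, by simp⟩ ⟨hb, rs_eq.1 hab⟩
  · intro x _
    obtain ⟨a, ⟨ha, hd⟩, _⟩ := hS (Quotient.out x)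
    exact ⟨a, ha, by rw [← V1.rs_out x]; exact (rs_eq.2 hd).symm⟩
  · intro a _
    exact (hF.out a).symm

theorem eT_eq_E {q : O} (a h : O) :
    eT (toC a * (toC h / (toC rt3 * toC q))) = E (rt3 * q) (a * h) := by
  rw [eT, V1.E, map_mul, map_mul]
  congr 2
  ring

theorem E_rt3 (x : O) : E rt3 x = 1 := by
  rw [V1.E, TrC_div_rt3, e_int]

theorem E_rt3_per {q : O} (hq : q ≠ 0) (k : O) : V1.Per q (fun x => E (rt3 * q) (x * k)) := by
  rintro x y ⟨t, ht⟩
  have h1 : x * k = y * k + q * (t * k) := by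
    rw [← mul_assoc, ← ht]; ring
  simp only
  rw [h1, V1.E_add, mul_comm rt3 q, V1.E_mul_cancel hq, E_rt3, mul_one]

theorem Per.toV1 {q : O} {ψ : O → ℂ} (h : Per q ψ) : V1.Per q ψ := by
  rintro x y ⟨t, ht⟩
  have : x = y + q * t := by rw [← ht]; ring
  rw [this, h]

theorem perOfV1 {q : O} {ψ : O → ℂ} (h : V1.Per q ψ) : Per q ψ := fun x y =>
  h _ _ ⟨y, by ring⟩

theorem GS_eq_rsum {q : O} (hq : q ≠ 0) {S : Finset O} (hS : IsResSys q S) {ψ : O → ℂ}
    (hψ : V1.Per q ψ) (h : O) :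
    GS q S ψ h = rsum q (fun x => ψ x * E (rt3 * q) (x * h)) := by
  rw [GS, ← sum_resSys hq hS (hψ.mul (E_rt3_per hq h))]
  refine Finset.sum_congr rfl fun a _ => ?_
  rw [eT_eq_E]

theorem norm_rsum_le {q : O} [NeZero q] {F : O → ℂ} {c : ℝ} (hF : ∀ x, ‖F x‖ ≤ c) :
    ‖rsum q F‖ ≤ N q * c := by
  rw [rsum_eq_sum]
  refine (norm_sum_le _ _).trans ?_
  refine (Finset.sum_le_sum fun x _ => hF _).trans (le_of_eq ?_)
  rw [Finset.sum_const, Finset.card_univ, fcard_Rs, nsmul_eq_mul]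

/-- Gauss sum of a primitive character -/
theorem rsum_pchar {m : O} {χ : O → ℂ} (h : CLS.PChar m χ) :
    ∃ τ : ℂ, ‖τ‖ ^ 2 = N m ∧ ∀ k : O, rsum m (fun x => χ x * E m (x * k)) = conj (χ k) * τ := by
  have : NeZero m := ⟨h.ne_zero⟩
  obtain ⟨τ, h1, h2⟩ := h.conj_char.gauss
  refine ⟨τ, h1, fun k => ?_⟩
  rw [h2 k, rsum_eq_sum]
  refine Finset.sum_congr rfl fun x _ => ?_
  have h3 : CLS.onRs m (fun n => conj (χ n)) x = conj (χ (Quotient.out x)) := by
    have := h.conj_char.onRs (Quotient.out x)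
    rw [V1.rs_out] at this
    exact this
  rw [h3, Complex.conj_conj, V1.E_eq_psi, map_mul, V1.rs_out, mul_comm x]

theorem norm_rsum_pchar_le {m : O} {χ : O → ℂ} (h : CLS.PChar m χ) (k : O) :
    ‖rsum m (fun x => χ x * E m (x * k))‖ ≤ Real.sqrt (N m) := by
  obtain ⟨τ, h1, h2⟩ := rsum_pchar h
  rw [h2, norm_mul, Complex.norm_conj, ← h1, Real.sqrt_sq (norm_nonneg _)]
  exact mul_le_of_le_one_left (norm_nonneg _) (h.norm_le k)

theorem N_nine : N (9 : O) = 81 := by decide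

theorem isCoprime_nine {m : O} (hm : Primary m) : IsCoprime (9 : O) m := by
  have h := hm.isCoprime_three
  have h2 : (9 : O) = 3 * 3 := by decide
  rw [h2]
  exact h.mul_left h

theorem isCoprime_rt3 {m : O} (hm : Primary m) : IsCoprime rt3 m := by
  have h : IsCoprime (rt3 * rt3) m := by
    rw [rt3_sq]; exact hm.isCoprime_three.neg_left
  exact h.of_mul_left_left

/-- the complete sum modulo `9m` factorises -/
theorem rsum_nine {m : O} (hm : Primary m) {χ : O → ℂ} (h : CLS.PChar m χ) {c : O → ℂ}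
    (hc : V1.Per 9 c) (k : O) :
    rsum (9 * m) (fun x => c x * χ x * E (rt3 * (9 * m)) (x * k)) =
      rsum 9 (fun x => c (m * x) * E (rt3 * 9) (x * k)) *
        (χ (9 * rt3) * rsum m (fun y => χ y * E m (y * k))) := by
  have h9 : (9 : O) ≠ 0 := by decide
  have hm0 := hm.ne_zero
  have : NeZero (9 : O) := ⟨h9⟩
  have : NeZero m := ⟨hm0⟩
  have hχ : V1.Per m χ := h.congr
  have hper : V1.Per (9 * m) (fun x => c x * χ x * E (rt3 * (9 * m)) (x * k)) :=
    ((hc.mono (dvd_mul_right 9 m)).mul (hχ.mono (dvd_mul_left m 9))).mul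
      (E_rt3_per (mul_ne_zero h9 hm0) k)
  rw [V1.rsum_crt h9 hm0 (isCoprime_nine hm) hper]
  have h1 : ∀ x y : O, c (m * x + 9 * y) * χ (m * x + 9 * y) *
      E (rt3 * (9 * m)) ((m * x + 9 * y) * k) =
      (c (m * x) * E (rt3 * 9) (x * k)) * (χ (9 * y) * E (rt3 * m) (y * k)) := by
    intro x y
    have e1 : c (m * x + 9 * y) = c (m * x) := hc _ _ (by
      rw [add_sub_cancel_left]; exact dvd_mul_right 9 y)
    have e2 : χ (m * x + 9 * y) = χ (9 * y) := hχ _ _ (by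
      rw [add_sub_cancel_right]; exact dvd_mul_right m x)
    have e3 : (m * x + 9 * y) * k = m * (x * k) + 9 * (y * k) := by ring
    rw [e1, e2, e3, V1.E_add, show rt3 * (9 * m) = m * (rt3 * 9) by ring, V1.E_mul_cancel hm0,
      show m * (rt3 * 9) = 9 * (rt3 * m) by ring, V1.E_mul_cancel h9]
    ring
  simp only [h1, V1.rsum_const_mul]
  have h2 : rsum m (fun y => χ (9 * y) * E (rt3 * m) (y * k)) =
      χ (9 * rt3) * rsum m (fun y => χ y * E m (y * k)) := by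
    have hp : V1.Per m (fun y => χ (9 * y) * E (rt3 * m) (y * k)) :=
      (hχ.comp_mul 9).mul (E_rt3_per hm0 k)
    rw [← V1.rsum_comp_mul (isCoprime_rt3 hm) hp, ← V1.rsum_const_mul]
    apply V1.rsum_congr
    intro y
    rw [← mul_assoc, h.mul, mul_assoc rt3 y k, V1.E_mul_cancel rt3_ne_zero]
    ring
  rw [h2, rsum_eq_sum 9, rsum_eq_sum 9, Finset.sum_mul]

/-- **Gauss sum bound** modulo `9m` -/
theorem norm_rsum_nine_le {m : O} (hm : Primary m) {χ : O → ℂ} (h : CLS.PChar m χ) {c : O → ℂ}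
    (hc : V1.Per 9 c) (hb : ∀ x, ‖c x‖ ≤ 1) (k : O) :
    ‖rsum (9 * m) (fun x => c x * χ x * E (rt3 * (9 * m)) (x * k))‖ ≤ 81 * Real.sqrt (N m) := by
  have : NeZero (9 : O) := ⟨by decide⟩
  rw [rsum_nine hm h hc k, norm_mul, norm_mul]
  have h1 : ‖rsum 9 (fun x => c (m * x) * E (rt3 * 9) (x * k))‖ ≤ N (9 : O) * 1 := by
    apply norm_rsum_le
    intro x
    rw [norm_mul, V1.norm_E, mul_one]
    exact hb _
  rw [N_nine, mul_one] at h1
  have h2 := norm_rsum_pchar_le h k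
  have h3 := h.norm_le (9 * rt3)
  have h4 : ‖χ (9 * rt3)‖ * ‖rsum m (fun y => χ y * E m (y * k))‖ ≤ 1 * Real.sqrt (N m) :=
    mul_le_mul h3 h2 (norm_nonneg _) zero_le_one
  rw [one_mul] at h4
  exact_mod_cast mul_le_mul h1 h4 (by positivity) (by norm_num)

theorem rsum_nine_zero {m : O} (hm : Primary m) {χ : O → ℂ} (h : CLS.PChar m χ) {c : O → ℂ}
    (hc : V1.Per 9 c) (hm1 : m ≠ 1) :
    rsum (9 * m) (fun x => c x * χ x * E (rt3 * (9 * m)) (x * 0)) = 0 := by
  rw [rsum_nine hm h hc 0]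
  obtain ⟨τ, _, h2⟩ := rsum_pchar h
  have h3 : χ 0 = 0 := by
    apply h.zero
    rw [isCoprime_zero_left]
    intro hu
    exact hm1 (hm.eq_one hu)
  rw [h2, h3, map_zero, zero_mul, mul_zero, mul_zero]

/-! ### weights -/

/-- weights for which the Pólya–Vinogradov bound holds with constant `C` -/
def PVW (w : O → ℂ) (C : ℝ) : Prop :=
  Summable (fun x => ‖w x‖) ∧ ∀ (q : O) (S : Finset O) (ψ : O → ℂ) (G : ℝ), q ≠ 0 →
    IsResSys q S → Per q ψ → GS q S ψ 0 = 0 → (∀ h, ‖GS q S ψ h‖ ≤ G) →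
      ‖∑' x, ψ x * w x‖ ≤ C * G

/-- absolute constant -/
noncomputable def cPV : ℝ := 12 / Real.sqrt 3 * cB

theorem cPV_nonneg : 0 ≤ cPV := by
  have := cB_nonneg
  rw [cPV]; positivity

/-- smooth radial weights are admissible -/
theorem pvw_wt {V : ℝ → ℂ} (hV : Wt V) {B : ℝ} (hB : 0 < B) :
    PVW (fun x => V (N x / B)) (cPV * KV V) := by
  constructor
  · have h := dec_summable_O (hV.scale hB).rad_dec
    have e1 : ∀ x : O, rad (fun x => V (x / B)) (toC x) = V (N x / B) := by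
      intro x; rw [rad, N_eq_sq_norm]
    simp only [e1] at h
    exact h.norm
  · intro q S ψ G hq hS hψ h0 hG
    have hG0 : 0 ≤ G := (norm_nonneg _).trans (hG 0)
    have h := pv_general hV hB hq hS hψ hG0 (fun h _ => hG h)
    rw [h0, zero_mul, mul_zero, sub_zero] at h
    rw [cPV]
    exact h

theorem pvw_wt_mul {V : ℝ → ℂ} (hV : Wt V) {B : ℝ} (hB : 0 < B) {d : O} (hd : d ≠ 0) :
    PVW (fun x => V (N (d * x) / B)) (cPV * KV V) := by
  have hNd : (0 : ℝ) < N d := by exact_mod_cast N_pos hd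
  have h := pvw_wt hV (B := B / N d) (by positivity)
  have e : (fun x : O => V ((N (d * x) : ℕ) / B)) = fun x : O => V (N x / (B / N d)) := by
    funext x
    congr 1
    rw [N_mul]
    push_cast
    field_simp
  rw [e]
  exact h

/-! ### the pair characters -/

/-- `b ↦ (b/k₁) conj (b/k₂)` -/
noncomputable def pc (k₁ k₂ b : O) : ℂ := toC (sym b k₁) * conj (toC (sym b k₂))

theorem pchar_pc {k₁ k₂ : O} (h₁ : Primary k₁) (h₂ : Primary k₂) (hsq : Squarefree (k₁ * k₂)) :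
    CLS.PChar (k₁ * k₂) (pc k₁ k₂) :=
  CLS.cubSym.pair_pchar h₁ h₂ hsq

/-- Pólya–Vinogradov for `c · χ` with `c` periodic modulo `9` -/
theorem pv_pair {w : O → ℂ} {C : ℝ} (hw : PVW w C) {k₁ k₂ : O} (h₁ : Primary k₁)
    (h₂ : Primary k₂) (hsq : Squarefree (k₁ * k₂)) (hne : k₁ * k₂ ≠ 1) {c : O → ℂ}
    (hc : V1.Per 9 c) (hb : ∀ x, ‖c x‖ ≤ 1) :
    ‖∑' b : O, c b * pc k₁ k₂ b * w b‖ ≤ C * (81 * Real.sqrt (N (k₁ * k₂))) := by
  have hm := h₁.mul h₂
  have hχ := pchar_pc h₁ h₂ hsq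
  have hq : (9 : O) * (k₁ * k₂) ≠ 0 := mul_ne_zero (by decide) hm.ne_zero
  have hper : V1.Per (9 * (k₁ * k₂)) (fun x => c x * pc k₁ k₂ x) :=
    (hc.mono (dvd_mul_right _ _)).mul (V1.Per.mono hχ.congr (dvd_mul_left _ _))
  apply hw.2 (9 * (k₁ * k₂)) (resSet _) (fun x => c x * pc k₁ k₂ x) _ hq (isResSys_resSet hq)
    (perOfV1 hper)
  · rw [GS_eq_rsum hq (isResSys_resSet hq) hper]
    exact rsum_nine_zero hm hχ hc hne
  · intro h
    rw [GS_eq_rsum hq (isResSys_resSet hq) hper]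
    exact norm_rsum_nine_le hm hχ hc hb h

end Vale.Agent.P006.PO
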