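import Vale.Agent.P006.H485.PV
import Vale.Agent.P006.CR.CubeChar

/-!
# P006, block PO: smooth Pólya–Vinogradov for the cubic characters `b ↦ (k/b)₃`
-/

open MeasureTheory Filter Topology Function Set
open scoped Real ComplexConjugate ContDiff

namespace Vale.Agent.P006.PO

open Classical in
/-- the part of `b ↦ (k/b)` which only depends on `b` modulo `9` -/
noncomputable def c9 (u : O) (j : ℕ) (b : O) : ℂ :=
  if Primary b then toC (sym u b * sym lam b ^ j) else 0

theorem primary_congr9 {b b' : O} (h : (9 : O) ∣ b - b') : Primary b ↔ Primary b' := by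
  have h3 : (3 : O) ∣ b - b' := dvd_trans ⟨3, by decide⟩ h
  constructor
  · intro hb
    have : b' - 1 = (b - 1) - (b - b') := by ring
    rw [Primary, this]; exact dvd_sub hb h3
  · intro hb
    have : b - 1 = (b' - 1) + (b - b') := by ring
    rw [Primary, this]; exact dvd_add hb h3

theorem c9_per {u : O} (hu : IsUnit u) (j : ℕ) : V1.Per 9 (c9 u j) := by
  intro b b' h
  by_cases hb : Primary b
  · have hb' : Primary b' := (primary_congr9 h).1 hb
    rw [c9, c9, if_pos hb, if_pos hb', sym_unit_left_congr hu hb h, sym_lam_congr hb h]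
  · have hb' : ¬ Primary b' := fun h' => hb ((primary_congr9 h).2 h')
    rw [c9, c9, if_neg hb, if_neg hb']

theorem norm_c9_le (u : O) (j : ℕ) (b : O) : ‖c9 u j b‖ ≤ 1 := by
  rw [c9]
  split_ifs
  · rw [map_mul, map_pow, norm_mul, norm_pow]
    exact mul_le_one₀ (norm_sym_le _ _) (by positivity) (pow_le_one₀ (norm_nonneg _)
      (norm_sym_le _ _))
  · simp

theorem norm_pc_le (k₁ k₂ b : O) : ‖pc k₁ k₂ b‖ ≤ 1 := by
  rw [pc, norm_mul, Complex.norm_conj]
  exact mul_le_one₀ (norm_sym_le _ _) (norm_nonneg _) (norm_sym_le _ _)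

theorem isCoprime_mul_unit_lam {u c b : O} (hu : IsUnit u) (j : ℕ) (hb : Primary b) :
    IsCoprime b (u * lam ^ j * c) ↔ IsCoprime b c := by
  constructor
  · intro h; exact h.of_mul_right_right
  · intro h
    refine IsCoprime.mul_right (IsCoprime.mul_right ?_ ?_) h
    · obtain ⟨v, hv⟩ := hu.exists_left_inv
      exact ⟨0, v, by rw [hv]; ring⟩
    · exact (hb.isCoprime_lam.symm).pow_right

open Classical in
/-- the character `b ↦ (k/b)` on primary elements, for `k = u λ^j k₁ k₂² k₃³` -/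
theorem sym_decomp {u k₁ k₂ k₃ : O} (j : ℕ) (h₁ : Primary k₁) (h₂ : Primary k₂)
    {b : O} (hb : Primary b) :
    toC (sym (u * lam ^ j * (k₁ * k₂ ^ 2 * k₃ ^ 3)) b) =
      if IsCoprime b k₃ then c9 u j b * pc k₁ k₂ b else 0 := by
  simp only [sym_mul_left, sym_pow_left, map_mul]
  rw [recip h₁ hb, recip h₂ hb, c9, if_pos hb, pc, conj_sym, map_mul, map_pow, map_pow, map_pow]
  split_ifs with h
  · rw [← map_pow toC (sym k₃ b), sym_cube h.symm, map_one]; ring
  · have : sym k₃ b = 0 := sym_eq_zero.2 fun h' => h h'.symm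
    rw [this]; simp

open Classical in
/-- **Smooth Pólya–Vinogradov inequality for the cubic characters** `b ↦ (k/b)₃`, with an
additional coprimality condition, over a general admissible weight. -/
theorem pv_cubic {u k₁ k₂ k₃ nu : O} (hu : IsUnit u) (j : ℕ) (h₁ : Primary k₁)
    (h₂ : Primary k₂) (h₃ : k₃ ≠ 0) (hsq : Squarefree (k₁ * k₂)) (hne : k₁ * k₂ ≠ 1)
    (hnu : nu ≠ 0) {w : O → ℂ} {C : ℝ}
    (hw : ∀ d, Primary d → d ∣ k₃ * nu → PVW (fun x => w (d * x)) C) :
    ‖∑' b : O, (if Primary b ∧ IsCoprime b nu then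
        toC (sym (u * lam ^ j * (k₁ * k₂ ^ 2 * k₃ ^ 3)) b) else 0) * w b‖ ≤
      81 * tau (k₃ * nu) * C * Real.sqrt (N (k₁ * k₂)) := by
  obtain ⟨u', j', c0, hu', hc0, hfac⟩ := exists_factor (mul_ne_zero h₃ hnu)
  have hd0 : c0 ∣ k₃ * nu := by rw [hfac]; exact dvd_mul_left _ _
  have hsub : dvs c0 ⊆ dvs (k₃ * nu) := by
    intro d hd
    rw [mem_dvs hc0.ne_zero] at hd
    rw [mem_dvs (mul_ne_zero h₃ hnu)]
    exact ⟨hd.1, hd.2.trans hd0⟩
  have hw1 : Summable fun x : O => ‖w x‖ := by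
    have := (hw 1 primary_one (one_dvd _)).1
    simpa using this
  -- the weight as a sum over divisors
  have hF : ∀ b : O, (if Primary b ∧ IsCoprime b nu then
        toC (sym (u * lam ^ j * (k₁ * k₂ ^ 2 * k₃ ^ 3)) b) else 0) * w b =
      ∑ d ∈ dvs c0, if d ∣ b then (moeb d : ℂ) * (c9 u j b * pc k₁ k₂ b * w b) else 0 := by
    intro b
    by_cases hb : Primary b
    · have e1 : (IsCoprime b k₃ ∧ IsCoprime b nu) ↔ IsCoprime c0 b := by
        rw [isCoprime_comm (x := c0) (y := b), ← isCoprime_mul_unit_lam (c := c0) hu' j' hb,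
          ← hfac, IsCoprime.mul_right_iff]
      have e2 : ∑ d ∈ dvs c0, (if d ∣ b then (moeb d : ℂ) * (c9 u j b * pc k₁ k₂ b * w b) else 0)
          = (if IsCoprime c0 b then 1 else 0) * (c9 u j b * pc k₁ k₂ b * w b) := by
        rw [← Finset.sum_filter, ← Finset.sum_mul]
        congr 1
        have := sum_moeb_common hc0 hb
        have h2 := congrArg (Int.cast : ℤ → ℂ) this
        push_cast at h2
        convert h2 using 1
      rw [e2, sym_decomp j h₁ h₂ hb]
      by_cases hA : IsCoprime b k₃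
      · by_cases hB : IsCoprime b nu
        · rw [if_pos ⟨hb, hB⟩, if_pos hA, if_pos (e1.1 ⟨hA, hB⟩), one_mul]
        · rw [if_neg (fun h => hB h.2), if_neg (fun h => hB (e1.2 h).2), zero_mul, zero_mul]
      · rw [if_neg hA, if_neg (fun h => hA (e1.2 h).1)]
        simp
    · have hz : c9 u j b = 0 := by rw [c9, if_neg hb]
      rw [if_neg (fun h => hb h.1), hz]
      simp
  have hbd : ∀ d b : O, ‖(if d ∣ b then (moeb d : ℂ) * (c9 u j b * pc k₁ k₂ b * w b) else 0)‖ ≤
      ‖w b‖ := by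
    intro d b
    split_ifs
    · rw [norm_mul, norm_mul, norm_mul]
      have h1 : ‖(moeb d : ℂ)‖ ≤ 1 := by
        rw [Complex.norm_intCast]
        exact_mod_cast abs_moeb_le d
      have h2 := norm_c9_le u j b
      have h3 := norm_pc_le k₁ k₂ b
      calc ‖(moeb d : ℂ)‖ * (‖c9 u j b‖ * ‖pc k₁ k₂ b‖ * ‖w b‖) ≤ 1 * (1 * 1 * ‖w b‖) := by
            gcongr
        _ = ‖w b‖ := by ring
    · simp
  have hsum : ∀ d ∈ dvs c0, Summable fun b : O =>
      (if d ∣ b then (moeb d : ℂ) * (c9 u j b * pc k₁ k₂ b * w b) else 0) := fun d _ =>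
    Summable.of_norm_bounded hw1 (hbd d)
  simp only [hF]
  rw [Summable.tsum_finsetSum hsum]
  refine (norm_sum_le _ _).trans ?_
  have hmain : ∀ d ∈ dvs c0, ‖∑' b : O, (if d ∣ b then (moeb d : ℂ) *
      (c9 u j b * pc k₁ k₂ b * w b) else 0)‖ ≤ C * (81 * Real.sqrt (N (k₁ * k₂))) := by
    intro d hd
    rw [mem_dvs hc0.ne_zero] at hd
    have hd1 := hd.1.ne_zero
    have hinj : Function.Injective fun x : O => d * x := mul_right_injective₀ hd1
    have hsupp : Function.support (fun b : O => (if d ∣ b then (moeb d : ℂ) *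
        (c9 u j b * pc k₁ k₂ b * w b) else 0)) ⊆ Set.range fun x : O => d * x := by
      intro b hb
      by_contra hn
      apply hb
      simp only
      rw [if_neg]
      rintro ⟨t, ht⟩
      exact hn ⟨t, ht.symm⟩
    rw [← hinj.tsum_eq hsupp]
    have h4 : ∀ x : O, (if d ∣ d * x then (moeb d : ℂ) *
        (c9 u j (d * x) * pc k₁ k₂ (d * x) * w (d * x)) else 0) =
        (moeb d : ℂ) * ((fun y => c9 u j (d * y) * pc k₁ k₂ d) x * pc k₁ k₂ x * w (d * x)) := by
      intro x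
      rw [if_pos (dvd_mul_right d x), (pchar_pc h₁ h₂ hsq).mul]
      ring
    simp only [h4]
    rw [tsum_mul_left, norm_mul]
    have h5 : ‖(moeb d : ℂ)‖ ≤ 1 := by
      rw [Complex.norm_intCast]
      exact_mod_cast abs_moeb_le d
    have h6 := pv_pair (hw d hd.1 (hd.2.trans hd0)) h₁ h₂ hsq hne
      (c := fun y => c9 u j (d * y) * pc k₁ k₂ d)
      (((c9_per hu j).comp_mul d).mul (fun _ _ _ => rfl)) (fun x => by
        rw [norm_mul]
        exact mul_le_one₀ (norm_c9_le _ _ _) (norm_nonneg _) (norm_pc_le _ _ _))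
    calc _ ≤ 1 * ‖∑' x : O, c9 u j (d * x) * pc k₁ k₂ d * pc k₁ k₂ x * w (d * x)‖ :=
          mul_le_mul_of_nonneg_right h5 (norm_nonneg _)
      _ ≤ _ := by rw [one_mul]; exact h6
  have hC0 : 0 ≤ C * (81 * Real.sqrt (N (k₁ * k₂))) := by
    have h1 : (1 : O) ∈ dvs c0 := hc0.one_mem_dvs
    exact (norm_nonneg _).trans (hmain 1 h1)
  calc _ ≤ ∑ _d ∈ dvs c0, C * (81 * Real.sqrt (N (k₁ * k₂))) := Finset.sum_le_sum hmain
    _ = tau c0 * (C * (81 * Real.sqrt (N (k₁ * k₂)))) := by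
        rw [Finset.sum_const, nsmul_eq_mul, tau]
    _ ≤ tau (k₃ * nu) * (C * (81 * Real.sqrt (N (k₁ * k₂)))) := by
        gcongr
        exact Finset.card_le_card hsub
    _ = _ := by ring

open Classical in
/-- smooth Pólya–Vinogradov for `V(N(b)/B)` -/
theorem pv_cubic_wt {V : ℝ → ℂ} (hV : Wt V) {B : ℝ} (hB : 0 < B) {u k₁ k₂ k₃ nu : O}
    (hu : IsUnit u) (j : ℕ) (h₁ : Primary k₁)
    (h₂ : Primary k₂) (h₃ : k₃ ≠ 0) (hsq : Squarefree (k₁ * k₂)) (hne : k₁ * k₂ ≠ 1)
    (hnu : nu ≠ 0) :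
    ‖∑' b : O, (if Primary b ∧ IsCoprime b nu then
        toC (sym (u * lam ^ j * (k₁ * k₂ ^ 2 * k₃ ^ 3)) b) else 0) * V (N b / B)‖ ≤
      81 * tau (k₃ * nu) * (cPV * KV V) * Real.sqrt (N (k₁ * k₂)) :=
  pv_cubic hu j h₁ h₂ h₃ hsq hne hnu (w := fun b => V (N b / B))
    (fun _ hd _ => pvw_wt_mul hV hB hd.ne_zero)

end Vale.Agent.P006.PO
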