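import Mathlib

/-!
# Poisson summation in several variables

General Poisson summation formula on `d → ℝ` for the lattice `ℤ^d`.
-/

open MeasureTheory Filter Topology Function Set
open scoped FourierTransform Real

namespace Vale.Agent.P006.PO

variable {d : Type*} [Fintype d]

/-- integer vector as a real vector -/
def zv (n : d → ℤ) : d → ℝ := fun i => (n i : ℝ)

/-- the projection to the torus -/
def toT (x : d → ℝ) : UnitAddTorus d := fun i => (x i : UnitAddCircle)

omit [Fintype d] in
theorem isOpenQuotientMap_toT : IsOpenQuotientMap (toT : (d → ℝ) → UnitAddTorus d) := by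
  have : IsOpenQuotientMap (Pi.map (fun _ : d => ((↑) : ℝ → UnitAddCircle))) :=
    IsOpenQuotientMap.piMap fun i => QuotientAddGroup.isOpenQuotientMap_mk
  exact this

omit [Fintype d] in
theorem toT_eq_iff {x y : d → ℝ} : toT x = toT y ↔ ∃ n : d → ℤ, y = x + zv n := by
  constructor
  · intro h
    have h1 : ∀ i, ∃ n : ℤ, y i = x i + n := by
      intro i
      have := congrFun h i
      simp only [toT] at this
      have h2 : ((y i - x i : ℝ) : UnitAddCircle) = 0 := by
        rw [AddCircle.coe_sub, this, sub_self]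
      rw [AddCircle.coe_eq_zero_iff] at h2
      obtain ⟨n, hn⟩ := h2
      refine ⟨n, ?_⟩
      have h3 : (n : ℝ) = y i - x i := by rw [← hn]; simp
      linarith
    choose n hn using h1
    exact ⟨n, by ext i; simp [zv, hn i]⟩
  · rintro ⟨n, rfl⟩
    ext i
    simp only [toT, Pi.add_apply, zv]
    rw [AddCircle.coe_add]
    simp

/-- the unit box based at an integer vector -/
def box (n : d → ℤ) : Set (d → ℝ) := {x | ∀ i, x i ∈ Ioc (n i : ℝ) (n i + 1)}

omit [Fintype d] in
theorem box_eq_pi (n : d → ℤ) : box n = Set.univ.pi fun i => Ioc (n i : ℝ) (n i + 1) := by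
  ext x; simp [box]

theorem measurableSet_box (n : d → ℤ) : MeasurableSet (box n) := by
  rw [box_eq_pi]
  exact MeasurableSet.univ_pi fun i => measurableSet_Ioc

omit [Fintype d] in
theorem iUnion_box : (⋃ n : d → ℤ, box n) = Set.univ := by
  ext x
  simp only [mem_iUnion, mem_univ, iff_true]
  refine ⟨fun i => ⌈x i⌉ - 1, fun i => ?_⟩
  simp only [Int.cast_sub, Int.cast_one, sub_add_cancel]
  exact ⟨by linarith [Int.ceil_lt_add_one (x i)], Int.le_ceil _⟩

omit [Fintype d] in
theorem pairwise_disjoint_box : Pairwise (Disjoint on (box : (d → ℤ) → Set (d → ℝ))) := by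
  intro m n hmn
  rw [Function.onFun, Set.disjoint_left]
  intro x hx hx'
  apply hmn
  ext i
  have h1 := hx i
  have h2 := hx' i
  simp only [mem_Ioc] at h1 h2
  have h3 : (m i : ℝ) < n i + 1 := by linarith
  have h4 : (n i : ℝ) < m i + 1 := by linarith
  have h5 : m i < n i + 1 := by exact_mod_cast h3
  have h6 : n i < m i + 1 := by exact_mod_cast h4
  omega

theorem setIntegral_box {E : Type*} [NormedAddCommGroup E] [NormedSpace ℝ E]
    (g : (d → ℝ) → E) (n : d → ℤ) :
    ∫ x in box n, g x = ∫ x in box (0 : d → ℤ), g (x + zv n) := by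
  have h := (measurePreserving_add_right (volume : Measure (d → ℝ)) (zv n)).setIntegral_preimage_emb
    (measurableEmbedding_addRight _) g (box n)
  rw [← h]
  congr 2
  ext x
  simp only [box, zv, mem_preimage, mem_ofPred_eq, Pi.add_apply, mem_Ioc, Pi.zero_apply,
    Int.cast_zero, zero_add]
  constructor
  · intro h i
    have := h i
    constructor <;> linarith
  · intro h i
    have := h i
    constructor <;> linarith

theorem hasSum_integral_box {E : Type*} [NormedAddCommGroup E] [NormedSpace ℝ E] [CompleteSpace E]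
    {g : (d → ℝ) → E} (hg : Integrable g) :
    HasSum (fun n : d → ℤ => ∫ x in box (0 : d → ℤ), g (x + zv n)) (∫ x, g x) := by
  have h := hasSum_integral_iUnion (μ := (volume : Measure (d → ℝ))) (f := g)
    (fun n : d → ℤ => measurableSet_box n) pairwise_disjoint_box hg.integrableOn
  rw [iUnion_box, setIntegral_univ] at h
  rwa [show (fun n : d → ℤ => ∫ x in box n, g x) =
    fun n : d → ℤ => ∫ x in box (0 : d → ℤ), g (x + zv n) from
      funext fun n => setIntegral_box g n] at h

/-- `e(m · x)` -/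
noncomputable def ch (m : d → ℤ) (x : d → ℝ) : ℂ :=
  Complex.exp (2 * π * Complex.I * ((∑ i, (m i : ℝ) * x i : ℝ) : ℂ))

theorem norm_ch (m : d → ℤ) (x : d → ℝ) : ‖ch m x‖ = 1 := by
  unfold ch
  rw [show (2 * π * Complex.I * ((∑ i, (m i : ℝ) * x i : ℝ) : ℂ)) =
    ((2 * π * ∑ i, (m i : ℝ) * x i : ℝ) : ℂ) * Complex.I by push_cast; ring]
  exact Complex.norm_exp_ofReal_mul_I _

theorem continuous_ch (m : d → ℤ) : Continuous (ch m) := by
  unfold ch
  fun_prop

theorem ch_add_zv (m n : d → ℤ) (x : d → ℝ) : ch m (x + zv n) = ch m x := by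
  unfold ch
  have h : (∑ i, (m i : ℝ) * (x + zv n) i) = (∑ i, (m i : ℝ) * x i) + ((∑ i, m i * n i : ℤ) : ℝ) := by
    simp only [Pi.add_apply, zv, mul_add, Finset.sum_add_distrib]
    push_cast
    rfl
  rw [h]
  push_cast
  rw [mul_add, Complex.exp_add]
  have := Complex.exp_int_mul_two_pi_mul_I (∑ i, m i * n i)
  rw [show 2 * (π : ℂ) * Complex.I * (∑ i, (m i : ℂ) * (n i : ℂ)) =
    ((∑ i, m i * n i : ℤ) : ℂ) * (2 * π * Complex.I) by push_cast; ring, this, mul_one]

theorem mFourier_toT (m : d → ℤ) (x : d → ℝ) : UnitAddTorus.mFourier m (toT x) = ch m x := by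
  simp only [UnitAddTorus.mFourier, toT, ContinuousMap.coe_mk]
  unfold ch
  rw [show (2 * π * Complex.I * ((∑ i, (m i : ℝ) * x i : ℝ) : ℂ)) =
    ∑ i, (2 * π * Complex.I * ((m i : ℂ) * (x i : ℂ))) by
      push_cast; rw [Finset.mul_sum], Complex.exp_sum]
  refine Finset.prod_congr rfl fun i _ => ?_
  rw [fourier_coe_apply]
  congr 1
  simp
  ring

theorem ch_neg (m : d → ℤ) (x : d → ℝ) : ch (-m) x = ch m (-x) := by
  unfold ch
  congr 2
  simp

/-- hypothesis: local uniform summability over the lattice -/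
def LocSum (f : (d → ℝ) → ℂ) : Prop :=
  ∀ R : ℝ, ∃ u : (d → ℤ) → ℝ, Summable u ∧ ∀ n, ∀ x, ‖x‖ ≤ R → ‖f (x + zv n)‖ ≤ u n

theorem LocSum.summable {f : (d → ℝ) → ℂ} (h : LocSum f) (x : d → ℝ) :
    Summable fun n : d → ℤ => f (x + zv n) := by
  obtain ⟨u, hu, hb⟩ := h ‖x‖
  exact Summable.of_norm_bounded hu fun n => hb n x le_rfl

theorem continuous_per {f : (d → ℝ) → ℂ} (hc : Continuous f) (h : LocSum f) :
    Continuous fun x => ∑' n : d → ℤ, f (x + zv n) := by
  rw [continuous_iff_continuousAt]
  intro x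
  obtain ⟨u, hu, hb⟩ := h (‖x‖ + 1)
  have h1 : ContinuousOn (fun x => ∑' n : d → ℤ, f (x + zv n)) (Metric.ball 0 (‖x‖ + 1)) := by
    apply continuousOn_tsum (u := u)
    · intro n
      exact (hc.comp (continuous_id.add continuous_const)).continuousOn
    · exact hu
    · intro n y hy
      apply hb
      rw [Metric.mem_ball, dist_zero_right] at hy
      exact hy.le
  apply h1.continuousAt
  apply Metric.isOpen_ball.mem_nhds
  rw [Metric.mem_ball, dist_zero_right]
  linarith [norm_nonneg x]

omit [Fintype d] in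
theorem per_periodic {f : (d → ℝ) → ℂ} (x : d → ℝ) (m : d → ℤ) :
    ∑' n : d → ℤ, f (x + zv m + zv n) = ∑' n : d → ℤ, f (x + zv n) := by
  rw [← (Equiv.addLeft m).tsum_eq (fun n : d → ℤ => f (x + zv n))]
  refine tsum_congr fun n => ?_
  congr 1
  ext i
  simp [zv]
  ring

theorem norm_mem_box_zero {x : d → ℝ} (hx : x ∈ box (0 : d → ℤ)) : ‖x‖ ≤ 1 := by
  rw [pi_norm_le_iff_of_nonneg zero_le_one]
  intro i
  have := hx i
  simp only [Pi.zero_apply, Int.cast_zero, zero_add, mem_Ioc] at this
  rw [Real.norm_eq_abs, abs_le]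
  constructor <;> linarith

theorem volume_box_zero : volume (box (0 : d → ℤ)) = 1 := by
  rw [box_eq_pi, volume_pi_pi]
  simp

/-- **Poisson summation** on `d → ℝ`. -/
theorem poisson {f : (d → ℝ) → ℂ} (hc : Continuous f) (hf : Integrable f) (h : LocSum f)
    (hF : Summable fun m : d → ℤ => ∫ y, ch (-m) y * f y) (x : d → ℝ) :
    HasSum (fun m : d → ℤ => (∫ y, ch (-m) y * f y) * ch m x) (∑' n : d → ℤ, f (x + zv n)) := by
  classical
  let P : C(d → ℝ, ℂ) := ⟨fun x => ∑' n : d → ℤ, f (x + zv n), continuous_per hc h⟩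
  have hfac : FactorsThrough P (toT : (d → ℝ) → UnitAddTorus d) := by
    intro a b hab
    obtain ⟨n, rfl⟩ := toT_eq_iff.1 hab
    exact (per_periodic a n).symm
  let T : C(d → ℝ, UnitAddTorus d) := ⟨toT, isOpenQuotientMap_toT.continuous⟩
  have hT : IsQuotientMap T := isOpenQuotientMap_toT.isQuotientMap
  let Q : C(UnitAddTorus d, ℂ) := hT.lift P hfac
  have hQ : ∀ x, Q (toT x) = ∑' n : d → ℤ, f (x + zv n) := fun x => by
    have := DFunLike.congr_fun (hT.lift_comp P hfac) x
    exact this
  have hcoef : ∀ m : d → ℤ, UnitAddTorus.mFourierCoeff Q m = ∫ y, ch (-m) y * f y := by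
    intro m
    rw [UnitAddTorus.mFourierCoeff_eq_integral (Q : UnitAddTorus d → ℂ) m 0]
    have hbox : {x : d → ℝ | ∀ i, x i ∈ Ioc ((0 : d → ℝ) i) ((0 : d → ℝ) i + 1)} =
        box (0 : d → ℤ) := by
      ext x; simp [box]
    rw [hbox]
    have e1 : ∀ x : d → ℝ, UnitAddTorus.mFourier (-m) (fun i => (x i : UnitAddCircle)) •
        Q (fun i => (x i : UnitAddCircle)) = ∑' n : d → ℤ, ch (-m) (x + zv n) * f (x + zv n) := by
      intro x
      have h1 : UnitAddTorus.mFourier (-m) (fun i => (x i : UnitAddCircle)) = ch (-m) x :=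
        mFourier_toT (-m) x
      have h2 : Q (fun i => (x i : UnitAddCircle)) = ∑' n : d → ℤ, f (x + zv n) := hQ x
      rw [h1, h2, smul_eq_mul, ← tsum_mul_left]
      refine tsum_congr fun n => ?_
      rw [ch_add_zv]
    simp only [e1]
    have hg : Integrable fun y => ch (-m) y * f y := by
      refine hf.bdd_mul (c := 1) (continuous_ch _).aestronglyMeasurable ?_
      exact Eventually.of_forall fun y => (norm_ch _ y).le
    rw [← (hasSum_integral_box hg).tsum_eq]
    obtain ⟨u, hu, hb⟩ := h 1
    have hcont : ∀ n : d → ℤ, Continuous fun x : d → ℝ => ch (-m) (x + zv n) * f (x + zv n) :=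
      fun n => ((continuous_ch _).mul hc).comp (continuous_id.add continuous_const)
    have hbd : ∀ n : d → ℤ, ∀ x ∈ box (0 : d → ℤ), ‖ch (-m) (x + zv n) * f (x + zv n)‖ ≤ u n := by
      intro n x hx
      rw [norm_mul, norm_ch, one_mul]
      exact hb n x (norm_mem_box_zero hx)
    have hint : ∀ n : d → ℤ, IntegrableOn (fun x : d → ℝ => ch (-m) (x + zv n) * f (x + zv n))
        (box (0 : d → ℤ)) := by
      intro n
      refine Measure.integrableOn_of_bounded (M := u n) ?_ (hcont n).aestronglyMeasurable ?_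
      · rw [volume_box_zero]; simp
      · exact (ae_restrict_iff' (measurableSet_box _)).2 (Eventually.of_forall (hbd n))
    refine (integral_tsum_of_summable_integral_norm hint ?_).symm
    refine Summable.of_nonneg_of_le (fun n => integral_nonneg fun x => norm_nonneg _)
      (fun n => ?_) hu
    calc ∫ x in box (0 : d → ℤ), ‖ch (-m) (x + zv n) * f (x + zv n)‖
        ≤ ∫ x in box (0 : d → ℤ), u n := by
          refine setIntegral_mono_on (hint n).norm ?_ (measurableSet_box _) (hbd n)
          refine integrableOn_const ?_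
          rw [volume_box_zero]; simp
      _ = u n := by
          rw [setIntegral_const, measureReal_def, volume_box_zero]; simp
  have hsum : Summable (UnitAddTorus.mFourierCoeff Q) := by
    have : (UnitAddTorus.mFourierCoeff Q) = fun m : d → ℤ => ∫ y, ch (-m) y * f y :=
      funext hcoef
    rw [this]; exact hF
  have h2 := UnitAddTorus.hasSum_mFourier_series_apply_of_summable hsum (toT x)
  rw [hQ x] at h2
  convert h2 using 1
  funext m
  rw [hcoef, mFourier_toT, smul_eq_mul]

end Vale.Agent.P006.PO
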