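import Vale.Agent.P006.H485.Lattice
import Mathlib.Analysis.Distribution.SchwartzSpace.Fourier

/-!
# P006, block PO: Poisson summation on `O = ℤ[ω]`

Main results: `poisson_O` (decaying functions), `poisson_schwartz`, periodic weights.
-/

open MeasureTheory Filter Topology Function Set
open scoped FourierTransform Real SchwartzMap

namespace Vale.Agent.P006.PO

/-! ### Comparison of norms, summability -/

theorem normSq_co (x : Fin 2 → ℝ) : ‖co x‖ ^ 2 = x 0 ^ 2 - x 0 * x 1 + x 1 ^ 2 := by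
  have h3 : Real.sqrt 3 * Real.sqrt 3 = 3 := Real.mul_self_sqrt (by norm_num)
  rw [← Complex.normSq_eq_norm_sq, Complex.normSq_apply]
  simp [co, omC]
  nlinarith

theorem norm_le_co (x : Fin 2 → ℝ) : ‖x‖ ≤ 2 * ‖co x‖ := by
  rw [pi_norm_le_iff_of_nonneg (by positivity)]
  intro i
  rw [Real.norm_eq_abs]
  apply abs_le_of_sq_le_sq _ (by positivity)
  rw [mul_pow, normSq_co]
  fin_cases i <;> simp <;> nlinarith [sq_nonneg (x 0 - x 1), sq_nonneg (x 0), sq_nonneg (x 1),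
    sq_nonneg (x 0 - 2 * x 1), sq_nonneg (2 * x 0 - x 1)]

theorem co_le_norm (x : Fin 2 → ℝ) : ‖co x‖ ≤ 2 * ‖x‖ := by
  have h0 : |x 0| ≤ ‖x‖ := norm_le_pi_norm x 0
  have h1 : |x 1| ≤ ‖x‖ := norm_le_pi_norm x 1
  have h2 : ‖omC‖ ≤ 1 := by
    have h : ‖omC‖ ^ 3 = 1 := by rw [← norm_pow, omC_cube, norm_one]
    by_contra hc
    push Not at hc
    have := one_lt_pow₀ hc (show 3 ≠ 0 by norm_num)
    linarith
  calc ‖co x‖ ≤ ‖(x 0 : ℂ)‖ + ‖(x 1 : ℂ) * omC‖ := norm_add_le _ _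
    _ ≤ |x 0| + |x 1| * 1 := by
        rw [norm_mul, Complex.norm_real, Complex.norm_real, Real.norm_eq_abs, Real.norm_eq_abs]
        gcongr
    _ ≤ 2 * ‖x‖ := by linarith

/-- cubic decay on `ℂ` -/
def Dec (f : ℂ → ℂ) : Prop := ∃ C : ℝ, ∀ z, (1 + ‖z‖) ^ 3 * ‖f z‖ ≤ C

theorem norm_zv (n : Fin 2 → ℤ) : ‖zv n‖ = ‖n‖ := by
  simp only [Pi.norm_def]
  congr 1

theorem summable_one_add_norm : Summable fun n : Fin 2 → ℤ => ((1 + ‖n‖) ^ 3)⁻¹ := by
  have h := EisensteinSeries.summable_one_div_norm_rpow (k := 3) (by norm_num)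
  refine Summable.of_norm_bounded_eventually h ?_
  rw [Filter.eventually_cofinite]
  refine (Set.finite_singleton (0 : Fin 2 → ℤ)).subset ?_
  intro n hn
  by_contra hne
  apply hn
  have hne' : n ≠ 0 := hne
  have hn0 : 0 < ‖n‖ := norm_pos_iff.2 hne'
  rw [Real.norm_of_nonneg (by positivity), Real.rpow_neg (norm_nonneg _)]
  have : ‖n‖ ^ (3 : ℝ) = ‖n‖ ^ 3 := by exact_mod_cast Real.rpow_natCast ‖n‖ 3
  rw [this]
  gcongr
  linarith

theorem key_bound (a : ℂ) {q : ℂ} (hq : q ≠ 0) (R : ℝ) :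
    ∃ K : ℝ, 0 < K ∧ ∀ (n : Fin 2 → ℤ) (x : Fin 2 → ℝ), ‖x‖ ≤ R →
      1 + ‖n‖ ≤ K * (1 + ‖a + q * co (x + zv n)‖) := by
  have hq' : 0 < ‖q‖ := norm_pos_iff.2 hq
  set D : ℝ := ‖a‖ + 2 * ‖q‖ * |R| with hD
  have hD0 : 0 ≤ D := by positivity
  refine ⟨1 + 2 * (1 + D) / ‖q‖, by positivity, fun n x hx => ?_⟩
  set z := a + q * co (x + zv n) with hz
  have h1 : ‖n‖ ≤ 2 * ‖co (zv n)‖ := by
    rw [← norm_zv]; exact norm_le_co _
  have h2 : q * co (zv n) = z - a - q * co x := by rw [hz, co_add]; ring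
  have h3 : ‖q‖ * ‖co (zv n)‖ ≤ ‖z‖ + D := by
    rw [← norm_mul, h2]
    calc ‖z - a - q * co x‖ ≤ ‖z - a‖ + ‖q * co x‖ := norm_sub_le _ _
      _ ≤ (‖z‖ + ‖a‖) + ‖q‖ * (2 * |R|) := by
          gcongr
          · exact norm_sub_le _ _
          · rw [norm_mul]
            gcongr
            have := co_le_norm x
            have h4 := le_abs_self R
            linarith
      _ = ‖z‖ + D := by rw [hD]; ring
  have h4 : ‖n‖ ≤ 2 * (‖z‖ + D) / ‖q‖ := by
    rw [le_div_iff₀ hq']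
    nlinarith
  have h5 : 2 * (‖z‖ + D) / ‖q‖ ≤ 2 * (1 + D) / ‖q‖ * (1 + ‖z‖) := by
    rw [div_mul_eq_mul_div]
    apply div_le_div_of_nonneg_right _ hq'.le
    nlinarith [norm_nonneg z, mul_nonneg hD0 (norm_nonneg z)]
  nlinarith [norm_nonneg z]

theorem Dec.bound {f : ℂ → ℂ} (hf : Dec f) (a : ℂ) {q : ℂ} (hq : q ≠ 0) (R : ℝ) :
    ∃ K : ℝ, ∀ (n : Fin 2 → ℤ) (x : Fin 2 → ℝ), ‖x‖ ≤ R →
      ‖f (a + q * co (x + zv n))‖ ≤ K * ((1 + ‖n‖) ^ 3)⁻¹ := by
  obtain ⟨C, hC⟩ := hf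
  obtain ⟨K, hK, hb⟩ := key_bound a hq R
  refine ⟨K ^ 3 * C, fun n x hx => ?_⟩
  rw [← div_eq_mul_inv, le_div_iff₀ (by positivity)]
  set z := a + q * co (x + zv n) with hz
  have h1 := hb n x hx
  calc ‖f z‖ * (1 + ‖n‖) ^ 3 ≤ ‖f z‖ * (K * (1 + ‖z‖)) ^ 3 := by
        gcongr
    _ = K ^ 3 * ((1 + ‖z‖) ^ 3 * ‖f z‖) := by ring
    _ ≤ K ^ 3 * C := by
        gcongr
        exact hC z

theorem Dec.locSum {f : ℂ → ℂ} (hf : Dec f) (a : ℂ) {q : ℂ} (hq : q ≠ 0) :
    LocSum fun x : Fin 2 → ℝ => f (a + q * co x) := by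
  intro R
  obtain ⟨K, hK⟩ := hf.bound a hq R
  exact ⟨fun n => K * ((1 + ‖n‖) ^ 3)⁻¹, summable_one_add_norm.mul_left K, hK⟩

theorem Dec.summable {f : ℂ → ℂ} (hf : Dec f) (a : ℂ) {q : ℂ} (hq : q ≠ 0) :
    Summable fun x : O => f (a + q * toC x) := by
  have h := (hf.locSum a hq).summable 0
  rw [← iz.summable_iff] at h
  refine h.congr fun x => ?_
  simp only [comp_apply, zero_add, co_zv_iz]

theorem Dec.integrable {f : ℂ → ℂ} (hc : Continuous f) (hf : Dec f) : Integrable f := by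
  obtain ⟨C, hC⟩ := hf
  have h1 : Integrable fun z : ℂ => (1 + ‖z‖) ^ (-3 : ℝ) :=
    integrable_one_add_norm (by rw [Complex.finrank_real_complex]; norm_num)
  refine (h1.const_mul C).mono' hc.aestronglyMeasurable (Eventually.of_forall fun z => ?_)
  have h2 : (1 + ‖z‖) ^ (-3 : ℝ) = ((1 + ‖z‖) ^ 3)⁻¹ := by
    rw [Real.rpow_neg (by positivity)]
    congr 1
    exact_mod_cast Real.rpow_natCast (1 + ‖z‖) 3
  rw [h2, ← div_eq_mul_inv, le_div_iff₀ (by positivity), mul_comm]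
  exact hC z

/-! ### Fourier transform on `ℂ` for the pairing `e(-Tr(zy))` -/

/-- `∫ f(z) e(-Tr(zy)) dz` -/
noncomputable def FT (f : ℂ → ℂ) (y : ℂ) : ℂ := ∫ z : ℂ, eT (-(z * y)) * f z

/-- **Poisson summation over a coset of a principal lattice `qO` in `ℂ`.** -/
theorem poisson_O {f : ℂ → ℂ} (hc : Continuous f) (hf : Dec f) (hF : Dec (FT f)) (a : ℂ)
    {q : ℂ} (hq : q ≠ 0) :
    HasSum (fun h : O => (2 / (Real.sqrt 3 * ‖q‖ ^ 2) : ℂ) *
        (eT (a * (toC h / (toC rt3 * q))) * FT f (toC h / (toC rt3 * q))))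
      (∑' x : O, f (a + q * toC x)) := by
  set κ : ℝ := 2 / (Real.sqrt 3 * ‖q‖ ^ 2) with hκ
  have hκ' : (2 / (Real.sqrt 3 * ‖q‖ ^ 2) : ℂ) = (κ : ℂ) := by rw [hκ]; push_cast; rfl
  set g : (Fin 2 → ℝ) → ℂ := fun x => f (a + q * co x) with hg
  have hgc : Continuous g := hc.comp (continuous_const.add (continuous_const.mul continuous_co))
  have hgi : Integrable g := integrable_affine a hq (hf.integrable hc)
  have hls : LocSum g := hf.locSum a hq
  have hcoef : ∀ h : O, (∫ y, ch (-(izd h)) y * g y) =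
      (κ : ℂ) * (eT (a * (toC h / (toC rt3 * q))) * FT f (toC h / (toC rt3 * q))) := by
    intro h
    have h1 : ∀ y : Fin 2 → ℝ, ch (-(izd h)) y * g y =
        (fun z => eT (-((z - a) * (toC h / (toC rt3 * q)))) * f z) (a + q * co y) := by
      intro y
      simp only [hg]
      congr 1
      rw [ch_neg, ch_izd]
      congr 1
      have h2 : co (-y) = - co y := by simp [co]; ring
      rw [h2]
      field_simp [toC_rt3_ne_zero]
      ring
    rw [integral_congr_ae (Eventually.of_forall h1),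
      integral_affine (fun z => eT (-((z - a) * (toC h / (toC rt3 * q)))) * f z) a hq, ← hκ,
      Complex.real_smul]
    congr 1
    rw [FT, ← integral_const_mul]
    congr 1
    funext z
    rw [← mul_assoc, ← eT_add]
    congr 2
    ring
  have hsum : Summable fun m : Fin 2 → ℤ => ∫ y, ch (-m) y * g y := by
    rw [← izd.summable_iff]
    have h2 : Summable fun h : O => FT f (toC h / (toC rt3 * q)) := by
      have h3 : (1 / (toC rt3 * q)) ≠ 0 := by
        rw [one_div]; exact inv_ne_zero (mul_ne_zero toC_rt3_ne_zero hq)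
      have h4 := hF.summable 0 h3
      refine h4.congr fun x => ?_
      congr 1
      ring
    rw [← summable_norm_iff] at h2 ⊢
    refine (h2.mul_left κ).congr fun h => ?_
    simp only [comp_apply]
    rw [hcoef, norm_mul, norm_mul, norm_eT, one_mul, Complex.norm_real, Real.norm_of_nonneg]
    positivity
  have hp := poisson hgc hgi hls hsum 0
  rw [← izd.hasSum_iff] at hp
  have e1 : (∑' n : Fin 2 → ℤ, g (0 + zv n)) = ∑' x : O, f (a + q * toC x) := by
    rw [← iz.tsum_eq]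
    refine tsum_congr fun x => ?_
    simp only [hg, zero_add, co_zv_iz]
  rw [e1] at hp
  have e2 : (fun h : O => (2 / (Real.sqrt 3 * ‖q‖ ^ 2) : ℂ) *
      (eT (a * (toC h / (toC rt3 * q))) * FT f (toC h / (toC rt3 * q)))) =
      ((fun m : Fin 2 → ℤ => (∫ y, ch (-m) y * g y) * ch m 0) ∘ izd) := by
    funext h
    simp only [comp_apply]
    rw [hcoef, hκ', ch_izd]
    simp [co]
  rw [e2]
  exact hp

end Vale.Agent.P006.PO
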